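import Vale.Agent.P272.HY.Defs
import Vale.Agent.P272.K.AMP.Vol
import Vale.Agent.P272.K.AMP.Iface

/-!
# P272 / FAM (Stage 3, Step C, disc half): local families of discs, frozen interface
-/

open scoped Manifold ContDiff ComplexOrder Topology ENNReal NNReal
open MeasureTheory Metric Set Filter

noncomputable section

namespace Vale.Agent.P272.FAM

open Vale.Agent.P272.K
open Vale.Agent.P272.K.AMP (volX trX)

section defs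
variable {n : ℕ} {X : Type*} [TopologicalSpace X] [ChartedSpace (Cm n) X]

/-- the functional `|f'(0)|²_w + c T^{(r)}_w(f) - T_g(f)` -/
def Phi (w g : Chart n X → Cm n → Matrix (Fin n) (Fin n) ℂ) (c r : ℝ) (f : ℂ → X) : ℝ :=
  BR.spd w f 0 + c * (HY.TE w r f).toReal - (HY.TE g 1 f).toReal

/-- a centred holomorphic family of discs over the ball `ball c d` of the chart `e`: `G y` is
centred at `e.symm y`, jointly holomorphic for `|z| < R`, `R > 1`, submersive in `y` -/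
structure CFam (e : Chart n X) (c : Cm n) (d R : ℝ) (G : Cm n → ℂ → X) : Prop where
  pos : 0 < d
  one_lt : 1 < R
  mem : e ∈ atlas (Cm n) X
  sub : ball c d ⊆ e.target
  zero : ∀ y ∈ ball c d, G y 0 = e.symm y
  cont : ∀ y ∈ ball c d, ∀ z ∈ ball (0 : ℂ) R, ContinuousAt (fun p : Cm n × ℂ => G p.1 p.2) (y, z)
  holo : ∀ y ∈ ball c d, ∀ z ∈ ball (0 : ℂ) R, ∀ e' : Chart n X, At e' (G y z) →
    DifferentiableAt ℂ (fun p : Cm n × ℂ => e' (G p.1 p.2)) (y, z)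
  inv : ∀ y ∈ ball c d, ∀ z ∈ ball (0 : ℂ) R, ∀ e' : Chart n X, At e' (G y z) →
    (HY.tj (fun z y => G y z) e' z y).det ≠ 0

end defs

section
variable (n : ℕ) {X : Type*} [TopologicalSpace X] [ChartedSpace (Cm n) X]
  [IsManifold 𝓘(ℂ, Cm n) ω X] [T2Space X] [CompactSpace X] [MeasurableSpace X] [BorelSpace X]

/-- a local family of holomorphic discs `F x`, centred at `x`, `x ∈ U` -/
structure LocFam (U : Set X) (F : X → ℂ → X) : Prop where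
  isOpen : IsOpen U
  zero : ∀ x ∈ U, F x 0 = x
  holo : ∀ x ∈ U, HY.HolD n (F x)
  cont : ContinuousOn (fun p : X × ℂ => F p.1 p.2) (U ×ˢ ball 0 1)
  spdc : ∀ a : Chart n X → Cm n → Matrix (Fin n) (Fin n) ℂ, IsHermitian a →
    ContinuousOn (fun p : X × ℂ => BR.spd a (F p.1) p.2) (U ×ˢ ball 0 1)
  spdb : ∀ a : Chart n X → Cm n → Matrix (Fin n) (Fin n) ℂ, IsHermitian a →
    ∃ C : ℝ, ∀ x ∈ U, ∀ z ∈ ball (0 : ℂ) 1, BR.spd a (F x) z ≤ C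
  dens : ∀ a : Chart n X → Cm n → Matrix (Fin n) (Fin n) ℂ, IsHermitian a →
    ∃ C : ℝ≥0, ∀ z ∈ ball (0 : ℂ) 1, ∀ A : Set X, MeasurableSet A →
      volX a (U ∩ {x | F x z ∈ A}) ≤ C * volX a A
  /-- the discs extend past the closed unit disc -/
  ext : ∃ R : ℝ, 1 < R ∧ ContinuousOn (fun p : X × ℂ => F p.1 p.2) (U ×ˢ ball 0 R) ∧
    ∀ x ∈ U, BR.HolOn n (F x) (ball 0 R)

variable (X)

/-- **F1a** = **GL1** (tube ⇒ centred family) -/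
def F1a : Prop := ∀ (f : ℂ → X) (δ : ℝ) (T : ℂ → Cm n → X), HY.HolTube f δ T →
  ∀ ρ R : ℝ, 0 < ρ → 1 < R → ρ * R < 1 → ∀ e : Chart n X, At e (f 0) →
  ∃ (d : ℝ) (G : Cm n → ℂ → X), CFam e (e (f 0)) d R G ∧
    ∀ z ∈ ball (0 : ℂ) R, G (e (f 0)) z = f (ρ * z)

/-- **F1b** (centred family ⇒ local family, parametrised by the points of `X`) -/
def F1b : Prop := ∀ (e : Chart n X) (c : Cm n) (d R : ℝ) (G : Cm n → ℂ → X), CFam e c d R G →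
  ∀ d' : ℝ, 0 < d' → d' < d →
    LocFam n (e.source ∩ {x | e x ∈ ball c d'}) (fun x z => G (e x) z)

/-- **F1** (tube ⇒ local family) -/
def F1 : Prop := ∀ (f : ℂ → X) (δ : ℝ) (T : ℂ → Cm n → X), HY.HolTube f δ T →
  ∀ ρ : ℝ, 0 < ρ → ρ < 1 → ∃ (U : Set X) (F : X → ℂ → X), f 0 ∈ U ∧ LocFam n U F ∧
    ∀ z ∈ ball (0 : ℂ) 1, F (f 0) z = f (ρ * z)

/-- **F2** (shrinking a disc changes `Φ` by little) -/
def F2 : Prop := ∀ w g : Chart n X → Cm n → Matrix (Fin n) (Fin n) ℂ, IsHermitian w →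
  IsHermitian g → ∀ c r : ℝ, 0 ≤ c → 0 < r → r < 1 → ∀ f : ℂ → X, HY.HolD n f →
  HY.TE g 1 f ≠ ⊤ → ∀ ε : ℝ, 0 < ε → ∃ ρ0 : ℝ, 0 < ρ0 ∧ ρ0 < 1 ∧ ∀ ρ : ℝ, ρ0 ≤ ρ → ρ < 1 →
    Phi w g c r f - ε ≤ Phi w g c r (fun z => f (ρ * z)) ∧ HY.TE g 1 (fun z => f (ρ * z)) ≠ ⊤

/-- **F3** (continuity of `Φ` and of the energies along a local family) -/
def F3 : Prop := ∀ (U : Set X) (F : X → ℂ → X), LocFam n U F →
  ∀ w g : Chart n X → Cm n → Matrix (Fin n) (Fin n) ℂ, IsHermitian w → IsHermitian g →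
  (∀ r : ℝ, 0 < r → r ≤ 1 → (∃ C : ℝ, ∀ x ∈ U, HY.TE w r (F x) ≤ ENNReal.ofReal C) ∧
    ContinuousOn (fun x => HY.TE w r (F x)) U) ∧
  ∀ c r : ℝ, 0 < r → r ≤ 1 → ContinuousOn (fun x => Phi w g c r (F x)) U

/-- **F4** (finite cover by good local families) -/
def F4 : Prop := ∀ w g : Chart n X → Cm n → Matrix (Fin n) (Fin n) ℂ, IsHermitian w →
  IsHermitian g → ∀ c r : ℝ, 0 ≤ c → 0 < r → r < 1 → ∀ S : X → ℝ, UpperSemicontinuous S →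
  (∀ x : X, ∀ ε : ℝ, 0 < ε → ∃ f : ℂ → X, f 0 = x ∧ HY.HolD n f ∧ HY.TE g 1 f ≠ ⊤ ∧
    S x - ε ≤ Phi w g c r f) →
  ∀ ε : ℝ, 0 < ε → ∃ (N : ℕ) (U : Fin N → Set X) (F : Fin N → X → ℂ → X),
    (∀ i, LocFam n (U i) (F i)) ∧ (∀ x, ∃ i, x ∈ U i) ∧
    ∀ i, ∀ x ∈ U i, S x - ε ≤ Phi w g c r (F i x)

/-- **F5** (Borel family of discs from a finite cover, push-forward measure, (C*)) -/
def F5 : Prop := ∀ w : Chart n X → Cm n → Matrix (Fin n) (Fin n) ℂ, IsHermitian w →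
  ∀ (N : ℕ) (U : Fin N → Set X) (F : Fin N → X → ℂ → X),
  (∀ i, LocFam n (U i) (F i)) → (∀ x, ∃ i, x ∈ U i) →
  ∃ κ : X → Fin N, Measurable κ ∧ (∀ x, x ∈ U (κ x)) ∧
    (∀ a : Chart n X → Cm n → Matrix (Fin n) (Fin n) ℂ, IsHermitian a → ∀ r : ℝ, 0 < r → r ≤ 1 →
      Measurable (fun x => HY.TE a r (F (κ x) x)) ∧
      ∃ C : ℝ, ∀ x, HY.TE a r (F (κ x) x) ≤ ENNReal.ofReal C) ∧
    ∃ C : ℝ≥0, ∀ (μ : Measure X) (K : ℝ≥0), μ ≤ K • volX w →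
      ∃ m : Measure X, m ≤ (C * K) • volX w ∧ m univ = ∫⁻ x, HY.TE w 1 (F (κ x) x) ∂μ ∧
        ∀ a : Chart n X → Cm n → Matrix (Fin n) (Fin n) ℂ, IsHermitian a →
          ∫⁻ x, ENNReal.ofReal ((trX a w x)⁻¹) ∂m ≤ ∫⁻ x, HY.TE a 1 (F (κ x) x) ∂μ

/-- **FC** (final output of the block: Borel family of near-maximisers with (C*)) -/
def FC : Prop := ∀ w g : Chart n X → Cm n → Matrix (Fin n) (Fin n) ℂ, IsHermitian w →
  IsHermitian g → ∀ c r : ℝ, 0 ≤ c → 0 < r → r < 1 → ∀ S : X → ℝ, UpperSemicontinuous S →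
  (∀ x : X, ∀ ε : ℝ, 0 < ε → ∃ f : ℂ → X, f 0 = x ∧ HY.HolD n f ∧ HY.TE g 1 f ≠ ⊤ ∧
    S x - ε ≤ Phi w g c r f) →
  ∀ ε : ℝ, 0 < ε → ∃ f : X → ℂ → X, (∀ x, f x 0 = x) ∧ (∀ x, HY.HolD n (f x)) ∧
    (∀ x, S x - ε ≤ Phi w g c r (f x)) ∧
    (∀ a : Chart n X → Cm n → Matrix (Fin n) (Fin n) ℂ, IsHermitian a → ∀ r : ℝ, 0 < r → r ≤ 1 →
      Measurable (fun x => HY.TE a r (f x)) ∧
      ∃ C : ℝ, ∀ x, HY.TE a r (f x) ≤ ENNReal.ofReal C) ∧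
    ∃ C : ℝ≥0, ∀ (μ : Measure X) (K : ℝ≥0), μ ≤ K • volX w →
      ∃ m : Measure X, m ≤ (C * K) • volX w ∧ m univ = ∫⁻ x, HY.TE w 1 (f x) ∂μ ∧
        ∀ a : Chart n X → Cm n → Matrix (Fin n) (Fin n) ℂ, IsHermitian a →
          ∫⁻ x, ENNReal.ofReal ((trX a w x)⁻¹) ∂m ≤ ∫⁻ x, HY.TE a 1 (f x) ∂μ

end

end Vale.Agent.P272.FAM
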