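import Vale.Agent.P272.FAM.Vel
import Mathlib.MeasureTheory.Function.Jacobian
import Mathlib.Analysis.Calculus.InverseFunctionTheorem.FDeriv

/-!
# P272 / FAM: a centred holomorphic family is a local family (F1b)
-/

open scoped Manifold ContDiff ComplexOrder Topology ENNReal NNReal
open MeasureTheory Metric Set Filter

noncomputable section

namespace Vale.Agent.P272.FAM

open Vale.Agent.P272.K
open Vale.Agent.P272.K.AMP (volX)

variable {n : ℕ} {X : Type*} [TopologicalSpace X] [ChartedSpace (Cm n) X]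
  {e : Chart n X} {c : Cm n} {d R : ℝ} {G : Cm n → ℂ → X}

lemma CFam.holV (h : CFam e c d R G) :
    HolV (n := n) (fun p : Cm n × ℂ => G p.1 p.2) (ball c d ×ˢ ball 0 R) := by
  refine ⟨isOpen_ball.prod isOpen_ball, ?_, ?_⟩
  · rintro ⟨y, z⟩ ⟨hy, hz⟩
    exact (h.cont y hy z hz).continuousWithinAt
  · rintro ⟨y, z⟩ ⟨hy, hz⟩ e' he'
    exact h.holo y hy z hz e' he'

lemma CFam.mono {d' : ℝ} (h : CFam e c d R G) (h0 : 0 < d') (hd : d' ≤ d) : CFam e c d' R G where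
  pos := h0
  one_lt := h.one_lt
  mem := h.mem
  sub := (ball_subset_ball hd).trans h.sub
  zero y hy := h.zero y (ball_subset_ball hd hy)
  cont y hy := h.cont y (ball_subset_ball hd hy)
  holo y hy := h.holo y (ball_subset_ball hd hy)
  inv y hy := h.inv y (ball_subset_ball hd hy)

variable [IsManifold 𝓘(ℂ, Cm n) ω X] [T2Space X] [CompactSpace X] [MeasurableSpace X]
  [BorelSpace X] {a : Chart n X → Cm n → Matrix (Fin n) (Fin n) ℂ}

/-- first consequence of the chart formula of `volX` -/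
def VC1 (a : Chart n X → Cm n → Matrix (Fin n) (Fin n) ℂ) : Prop :=
  ∀ e : Chart n X, e ∈ atlas (Cm n) X → ∀ K : Set (Cm n), IsCompact K → K ⊆ e.target →
    ∃ C : ℝ≥0, ∀ A : Set X, MeasurableSet A → volume (e '' (A ∩ e.symm '' K)) ≤ C * volX a A

/-- second consequence of the chart formula of `volX` -/
def VC2 (a : Chart n X → Cm n → Matrix (Fin n) (Fin n) ℂ) : Prop :=
  ∀ e : Chart n X, e ∈ atlas (Cm n) X → ∀ K : Set (Cm n), IsCompact K → K ⊆ e.target →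
    ∃ C : ℝ≥0, ∀ E : Set (Cm n), MeasurableSet E → E ⊆ K → volX a (e.symm '' E) ≤ C * volume E

omit [IsManifold 𝓘(ℂ, Cm n) ω X] [T2Space X] [CompactSpace X] [MeasurableSpace X]
  [BorelSpace X] in
lemma det_restrict_ne_zero (L : Cm n →L[ℂ] Cm n) (h : ∀ v, L v = 0 → v = 0) :
    (L.restrictScalars ℝ).det ≠ 0 := by
  have h1 : IsUnit ((L.restrictScalars ℝ : Cm n →L[ℝ] Cm n) : Cm n →ₗ[ℝ] Cm n) := by
    rw [LinearMap.isUnit_iff_ker_eq_bot, LinearMap.ker_eq_bot']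
    intro v hv
    exact h v hv
  exact ((LinearMap.isUnit_iff_isUnit_det _).1 h1).ne_zero

/-- local density bound -/
lemma local_dens (hG : CFam e c d R G) (h1 : VC1 a) {y0 : Cm n} (hy0 : y0 ∈ ball c d) {z0 : ℂ}
    (hz0 : z0 ∈ ball (0 : ℂ) R) : ∃ C : ℝ≥0, ∃ N ∈ 𝓝 y0, ∃ M ∈ 𝓝 z0, ∀ z ∈ M, ∀ A : Set X,
      MeasurableSet A → volume (N ∩ {y | G y z ∈ A}) ≤ C * volX a A := by
  have hV := hG.holV
  have he' : At (chartAt (Cm n) (G y0 z0)) (G y0 z0) := BR.at_chartAt _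
  set e' : Chart n X := chartAt (Cm n) (G y0 z0) with he'd
  set g : Cm n × ℂ → Cm n := fun p => e' (G p.1 p.2) with hg
  have han : AnalyticAt ℂ g (y0, z0) := hV.analyticAt (p := (y0, z0)) ⟨hy0, hz0⟩ he'
  have hst : HasStrictFDerivAt g (fderiv ℂ g (y0, z0)) (y0, z0) :=
    (han.contDiffAt (n := 1)).hasStrictFDerivAt one_ne_zero
  set L : Cm n →L[ℂ] Cm n := (fderiv ℂ g (y0, z0)).comp (ContinuousLinearMap.inl ℂ (Cm n) ℂ) with hL
  have hLd : HasFDerivAt (fun y => e' (G y z0)) L y0 :=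
    HasFDerivAt.comp (g := g) (f := fun y => (y, z0)) y0 han.differentiableAt.hasFDerivAt
      (hasFDerivAt_prodMk_left y0 z0)
  have hLi : ∀ v, L v = 0 → v = 0 := by
    intro v hv
    refine jmat_eq_zero_iff_det hLd.differentiableAt ?_ (v := v) (by rw [hLd.fderiv]; exact hv)
    rw [← tj_eq_jmat (F := fun z y => G y z) (z := z0) hLd.differentiableAt]
    exact hG.inv y0 hy0 z0 hz0 e' he'
  have hdet := det_restrict_ne_zero L hLi
  set D : ℝ := |(L.restrictScalars ℝ : Cm n →L[ℝ] Cm n).det| with hD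
  have hD0 : 0 < D := abs_pos.2 hdet
  obtain ⟨m, hm0, hmD⟩ : ∃ m : ℝ≥0, 0 < m ∧ (m : ℝ≥0∞) < ENNReal.ofReal D := by
    refine ⟨(D / 2).toNNReal, by simpa using hD0, ?_⟩
    show ENNReal.ofReal (D / 2) < ENNReal.ofReal D
    exact (ENNReal.ofReal_lt_ofReal_iff hD0).2 (by linarith)
  obtain ⟨δ, hδ, hδ0⟩ := ((mul_le_addHaar_image_of_lt_det (volume : Measure (Cm n)) _ hmD).and
    self_mem_nhdsWithin).exists
  have hδ0' : 0 < δ := hδ0
  obtain ⟨s, hs, happ⟩ := hst.approximates_deriv_on_nhds (c := δ) (Or.inr hδ0')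
  -- compact neighbourhood in the target
  obtain ⟨ε, hε, hεs⟩ : ∃ ε > 0, closedBall (g (y0, z0)) ε ⊆ e'.target :=
    Metric.nhds_basis_closedBall.mem_iff.1 (e'.open_target.mem_nhds he'.mem_target)
  obtain ⟨C1, hC1⟩ := h1 e' he'.1 _ (isCompact_closedBall (g (y0, z0)) ε) hεs
  have hev : ∀ᶠ p : Cm n × ℂ in 𝓝 (y0, z0), p ∈ s ∧ G p.1 p.2 ∈ e'.source ∧
      g p ∈ closedBall (g (y0, z0)) ε := by
    filter_upwards [hs, hV.eventually_at (p := (y0, z0)) ⟨hy0, hz0⟩ he',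
      han.continuousAt.eventually (closedBall_mem_nhds _ hε)] with p hp hp' hp''
    exact ⟨hp, hp'.2.2, hp''⟩
  obtain ⟨N, hN, M, hM, hNM⟩ := mem_nhds_prod_iff.1 hev
  refine ⟨m⁻¹ * C1, N, hN, M, hM, fun z hz A hA => ?_⟩
  set sA : Set (Cm n) := N ∩ {y | G y z ∈ A} with hsA
  have hap : ApproximatesLinearOn (fun y => e' (G y z)) (L.restrictScalars ℝ) sA δ := by
    intro y hy y' hy'
    have h2 := happ (y, z) (hNM ⟨hy.1, hz⟩).1 (y', z) (hNM ⟨hy'.1, hz⟩).1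
    have h3 : ((y, z) - (y', z) : Cm n × ℂ) = (y - y', 0) := by simp
    have h4 : ‖((y - y', 0) : Cm n × ℂ)‖ = ‖y - y'‖ := by simp [Prod.norm_def]
    rw [h3, h4] at h2
    exact h2
  have h5 := hδ sA _ hap
  have h6 : (fun y => e' (G y z)) '' sA ⊆ e' '' (A ∩ e'.symm '' closedBall (g (y0, z0)) ε) := by
    rintro _ ⟨y, hy, rfl⟩
    have h7 := hNM (show (y, z) ∈ N ×ˢ M from ⟨hy.1, hz⟩)
    refine ⟨G y z, ⟨hy.2, g (y, z), h7.2.2, ?_⟩, rfl⟩
    exact e'.left_inv h7.2.1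
  have h8 : (m : ℝ≥0∞) * volume sA ≤ C1 * volX a A := h5.trans ((measure_mono h6).trans (hC1 A hA))
  have hm1 : (m : ℝ≥0∞) ≠ 0 := by exact_mod_cast hm0.ne'
  calc volume sA = (m : ℝ≥0∞)⁻¹ * ((m : ℝ≥0∞) * volume sA) := by
        rw [← mul_assoc, ENNReal.inv_mul_cancel hm1 ENNReal.coe_ne_top, one_mul]
    _ ≤ (m : ℝ≥0∞)⁻¹ * (C1 * volX a A) := by gcongr
    _ = ((m⁻¹ * C1 : ℝ≥0) : ℝ≥0∞) * volX a A := by
        rw [ENNReal.coe_mul, ENNReal.coe_inv hm0.ne', mul_assoc]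

/-- density bound over compact sets -/
lemma compact_dens (hG : CFam e c d R G) (h1 : VC1 a) {K : Set (Cm n × ℂ)} (hK : IsCompact K)
    (hKs : K ⊆ ball c d ×ˢ ball 0 R) : ∃ C : ℝ≥0, ∀ z : ℂ, ∀ A : Set X, MeasurableSet A →
      volume {y | (y, z) ∈ K ∧ G y z ∈ A} ≤ C * volX a A := by
  refine hK.induction_on (p := fun s => ∃ C : ℝ≥0, ∀ z : ℂ, ∀ A : Set X, MeasurableSet A →
      volume {y | (y, z) ∈ s ∧ G y z ∈ A} ≤ C * volX a A) ?_ ?_ ?_ ?_
  · exact ⟨0, fun z A _ => by simp⟩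
  · rintro s t hst ⟨C, hC⟩
    refine ⟨C, fun z A hA => le_trans (measure_mono ?_) (hC z A hA)⟩
    rintro y ⟨hy1, hy2⟩
    exact ⟨hst hy1, hy2⟩
  · rintro s t ⟨C, hC⟩ ⟨C', hC'⟩
    refine ⟨C + C', fun z A hA => ?_⟩
    have h2 : {y | (y, z) ∈ s ∪ t ∧ G y z ∈ A} ⊆
        {y | (y, z) ∈ s ∧ G y z ∈ A} ∪ {y | (y, z) ∈ t ∧ G y z ∈ A} := by
      rintro y ⟨h3 | h3, h4⟩
      · exact Or.inl ⟨h3, h4⟩
      · exact Or.inr ⟨h3, h4⟩
    refine ((measure_mono h2).trans (measure_union_le _ _)).trans ?_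
    rw [ENNReal.coe_add, add_mul]
    exact add_le_add (hC z A hA) (hC' z A hA)
  · rintro ⟨y0, z0⟩ hp
    obtain ⟨C, N, hN, M, hM, h2⟩ := local_dens hG h1 (hKs hp).1 (hKs hp).2
    refine ⟨N ×ˢ M, mem_nhdsWithin_of_mem_nhds (prod_mem_nhds hN hM), C, fun z A hA => ?_⟩
    by_cases hz : z ∈ M
    · refine (measure_mono ?_).trans (h2 z hz A hA)
      rintro y ⟨h3, h4⟩
      exact ⟨h3.1, h4⟩
    · have h3 : {y | (y, z) ∈ N ×ˢ M ∧ G y z ∈ A} = ∅ := by
        ext y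
        simp only [mem_empty_iff_false, iff_false]
        intro h4
        exact hz h4.1.2
      rw [h3]
      simp

/-- the bound of the speed over compact sets -/
lemma CFam.spd_bdd (hG : CFam e c d R G) (ha : IsHermitian a) {K : Set (Cm n × ℂ)}
    (hK : IsCompact K) (hKs : K ⊆ ball c d ×ˢ ball 0 R) :
    ∃ C : ℝ, ∀ p ∈ K, BR.spd a (G p.1) p.2 ≤ C := by
  obtain ⟨C, hC⟩ := hK.exists_bound_of_continuousOn ((hG.holV.continuousOn_spd ha).mono hKs)
  exact ⟨C, fun p hp => (le_abs_self _).trans (hC p hp)⟩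

lemma CFam.measurable_slice (hG : CFam e c d R G) {z : ℂ} (hz : z ∈ ball (0 : ℂ) R) {d' : ℝ}
    (hd : d' ≤ d) {A : Set X} (hA : MeasurableSet A) :
    MeasurableSet (ball c d' ∩ {y | G y z ∈ A}) := by
  have hcz : ContinuousOn (fun y => G y z) (ball c d') := by
    intro y hy
    have h2 : ContinuousAt (fun p : Cm n × ℂ => G p.1 p.2) (y, z) :=
      hG.cont y (ball_subset_ball hd hy) z hz
    exact (ContinuousAt.comp (g := fun p : Cm n × ℂ => G p.1 p.2) (f := fun y => (y, z)) h2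
      (Continuous.prodMk_left z).continuousAt).continuousWithinAt
  have h2 := (continuousOn_iff_continuous_domRestrict.1 hcz).measurable hA
  have h3 := (measurableSet_ball (x := c) (ε := d')).subtype_image h2
  convert h3 using 1
  ext y
  simp
  exact and_comm

/-- the density bound, transported to `X` -/
lemma CFam.dens_aux (hG : CFam e c d R G) (h1 : VC1 a) (h2 : VC2 a) {d' : ℝ} (hd : d' < d) :
    ∃ C : ℝ≥0, ∀ z ∈ ball (0 : ℂ) 1, ∀ A : Set X, MeasurableSet A →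
      volX a ((e.source ∩ {x | e x ∈ ball c d'}) ∩ {x | G (e x) z ∈ A}) ≤ C * volX a A := by
  have hK : IsCompact (closedBall c d' ×ˢ closedBall (0 : ℂ) 1) :=
    (isCompact_closedBall c d').prod (isCompact_closedBall 0 1)
  have hKs : closedBall c d' ×ˢ closedBall (0 : ℂ) 1 ⊆ ball c d ×ˢ ball 0 R :=
    prod_mono (closedBall_subset_ball hd) (closedBall_subset_ball hG.one_lt)
  obtain ⟨C, hC⟩ := compact_dens hG h1 hK hKs
  obtain ⟨C2, hC2⟩ := h2 e hG.mem (closedBall c d') (isCompact_closedBall c d')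
    ((closedBall_subset_ball hd).trans hG.sub)
  refine ⟨C2 * C, fun z hz A hA => ?_⟩
  have hEm := hG.measurable_slice (ball_subset_ball hG.one_lt.le hz) hd.le hA
  set E : Set (Cm n) := ball c d' ∩ {y | G y z ∈ A} with hE
  have hEs : (e.source ∩ {x | e x ∈ ball c d'}) ∩ {x | G (e x) z ∈ A} ⊆ e.symm '' E := by
    rintro x ⟨hx, hxA⟩
    exact ⟨e x, ⟨hx.2, hxA⟩, e.left_inv hx.1⟩
  have h3 : volume E ≤ C * volX a A := by
    refine le_trans (measure_mono ?_) (hC z A hA)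
    rintro y ⟨hy1, hy2⟩
    exact ⟨⟨ball_subset_closedBall hy1, ball_subset_closedBall hz⟩, hy2⟩
  calc volX a ((e.source ∩ {x | e x ∈ ball c d'}) ∩ {x | G (e x) z ∈ A})
      ≤ volX a (e.symm '' E) := measure_mono hEs
    _ ≤ C2 * volume E := hC2 E hEm fun y hy => ball_subset_closedBall hy.1
    _ ≤ C2 * (C * volX a A) := mul_le_mul_right h3 _
    _ = ((C2 * C : ℝ≥0) : ℝ≥0∞) * volX a A := by rw [ENNReal.coe_mul, mul_assoc]

/-- **F1b**, from the two consequences of the chart formula -/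
theorem locFam_of_cfam (hG : CFam e c d R G)
    (hvc : ∀ a : Chart n X → Cm n → Matrix (Fin n) (Fin n) ℂ, IsHermitian a → VC1 a ∧ VC2 a)
    {d' : ℝ} (hd : d' < d) :
    LocFam n (e.source ∩ {x | e x ∈ ball c d'}) (fun x z => G (e x) z) := by
  have hV := hG.holV
  set U : Set X := e.source ∩ {x | e x ∈ ball c d'} with hU
  have hsub : ∀ x ∈ U, e x ∈ ball c d := fun x hx => ball_subset_ball hd.le hx.2
  have h1R : ball (0 : ℂ) 1 ⊆ ball 0 R := ball_subset_ball hG.one_lt.le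
  have hmap : ∀ r : ℝ, r ≤ R → MapsTo (fun p : X × ℂ => (e p.1, p.2))
      (U ×ˢ ball (0 : ℂ) r) (ball c d ×ˢ ball 0 R) := by
    rintro r hr ⟨x, z⟩ ⟨hx, hz⟩
    exact ⟨hsub x hx, ball_subset_ball hr hz⟩
  have hcr : ∀ r : ℝ, ContinuousOn (fun p : X × ℂ => (e p.1, p.2)) (U ×ˢ ball (0 : ℂ) r) := by
    intro r
    refine ContinuousOn.prodMk ?_ continuousOn_snd
    exact e.continuousOn.comp continuousOn_fst fun p hp => hp.1.1
  have hK : IsCompact (closedBall c d' ×ˢ closedBall (0 : ℂ) 1) :=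
    (isCompact_closedBall c d').prod (isCompact_closedBall 0 1)
  have hKs : closedBall c d' ×ˢ closedBall (0 : ℂ) 1 ⊆ ball c d ×ˢ ball 0 R :=
    prod_mono (closedBall_subset_ball hd) (closedBall_subset_ball hG.one_lt)
  have hcont : ∀ r : ℝ, r ≤ R →
      ContinuousOn (fun p : X × ℂ => G (e p.1) p.2) (U ×ˢ ball (0 : ℂ) r) := fun r hr =>
    ContinuousOn.comp (g := fun p : Cm n × ℂ => G p.1 p.2) (f := fun p : X × ℂ => (e p.1, p.2))
      hV.cont (hcr r) (hmap r hr)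
  exact
    { isOpen := e.isOpen_inter_preimage isOpen_ball
      zero := fun x hx => by
        show G (e x) 0 = x
        rw [hG.zero _ (hsub x hx), e.left_inv hx.1]
      holo := fun x hx z hz => hV.holAt (p := (e x, z)) ⟨hsub x hx, h1R hz⟩
      cont := hcont 1 hG.one_lt.le
      spdc := fun a ha =>
        ContinuousOn.comp (g := fun p : Cm n × ℂ => BR.spd a (G p.1) p.2)
          (f := fun p : X × ℂ => (e p.1, p.2)) (hV.continuousOn_spd ha) (hcr 1)
          (hmap 1 hG.one_lt.le)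
      spdb := fun a ha => by
        obtain ⟨C, hC⟩ := hG.spd_bdd ha hK hKs
        exact ⟨C, fun x hx z hz =>
          hC (e x, z) ⟨ball_subset_closedBall hx.2, ball_subset_closedBall hz⟩⟩
      dens := fun a ha => hG.dens_aux (hvc a ha).1 (hvc a ha).2 hd
      ext := ⟨R, hG.one_lt, hcont R le_rfl, fun x hx z hz =>
        hV.holAt (p := (e x, z)) ⟨hsub x hx, hz⟩⟩ }

end Vale.Agent.P272.FAM
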