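import Vale.Agent.P272.FAM.F3
import Vale.Agent.P272.HY.Blocks

/-!
# P272 / FAM / F4: finite cover of `X` by local families of near-maximisers
-/

open scoped Manifold ContDiff ComplexOrder Topology ENNReal NNReal
open MeasureTheory Metric Set Filter

set_option linter.all false

noncomputable section

namespace Vale.Agent.P272.FAM

open Vale.Agent.P272.K
open Vale.Agent.P272.K.AMP (volX trX)

section
variable {n : ℕ} {X : Type*} [TopologicalSpace X] [ChartedSpace (Cm n) X]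
  [IsManifold 𝓘(ℂ, Cm n) ω X] [T2Space X] [CompactSpace X] [MeasurableSpace X] [BorelSpace X]

/-- a local family restricts to smaller open sets -/
lemma LocFam.mono {U V : Set X} {F : X → ℂ → X} (hF : LocFam n U F) (hV : IsOpen V)
    (hVU : V ⊆ U) : LocFam n V F where
  isOpen := hV
  zero x hx := hF.zero x (hVU hx)
  holo x hx := hF.holo x (hVU hx)
  cont := hF.cont.mono (prod_mono hVU le_rfl)
  spdc a ha := (hF.spdc a ha).mono (prod_mono hVU le_rfl)
  spdb a ha := by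
    obtain ⟨C, hC⟩ := hF.spdb a ha
    exact ⟨C, fun x hx => hC x (hVU hx)⟩
  dens a ha := by
    obtain ⟨C, hC⟩ := hF.dens a ha
    exact ⟨C, fun z hz A hA => (measure_mono (inter_subset_inter_left _ hVU)).trans (hC z hz A hA)⟩
  ext := by
    obtain ⟨R, hR, hc, hh⟩ := hF.ext
    exact ⟨R, hR, hc.mono (prod_mono hVU le_rfl), fun x hx => hh x (hVU hx)⟩

/-- every point has a neighbourhood carrying a local family of near-maximisers -/
lemma exists_nbhd (h1 : F1 n X)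
    (h9 : ∀ f : ℂ → X, ContinuousOn f (closedBall 0 1) → HY.HolD n f →
      ∃ (δ : ℝ) (F : ℂ → Cm n → X), HY.HolTube f δ F)
    {w g : Chart n X → Cm n → Matrix (Fin n) (Fin n) ℂ} (hw : IsHermitian w)
    (hg : IsHermitian g) {c r : ℝ} (hc : 0 ≤ c) (hr : 0 < r) (hr1 : r < 1) {S : X → ℝ}
    (hS : UpperSemicontinuous S)
    (hmax : ∀ x : X, ∀ ε : ℝ, 0 < ε → ∃ f : ℂ → X, f 0 = x ∧ HY.HolD n f ∧ HY.TE g 1 f ≠ ⊤ ∧
      S x - ε ≤ Phi w g c r f) {ε : ℝ} (hε : 0 < ε) (x0 : X) :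
    ∃ (V : Set X) (F : X → ℂ → X), x0 ∈ V ∧ LocFam n V F ∧
      ∀ x ∈ V, S x - ε ≤ Phi w g c r (F x) := by
  obtain ⟨f, hf0, hf, hfT, hfS⟩ := hmax x0 (ε / 4) (by positivity)
  obtain ⟨ρ0, hρ0, hρ01, hρ⟩ := f2 n X w g hw hg c r hc hr hr1 f hf hfT (ε / 4) (by positivity)
  set s : ℝ := (1 + ρ0) / 2 with hs
  have hs0 : 0 < s := by rw [hs]; linarith
  have hs1 : s < 1 := by rw [hs]; linarith
  have hss : ρ0 ≤ s * s := by rw [hs]; nlinarith [sq_nonneg (1 - ρ0)]
  have hss1 : s * s < 1 := by nlinarith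
  have hc1 : ContinuousOn (fun z : ℂ => f (s * z)) (closedBall 0 1) := by
    intro z hz
    have hz1 : ‖z‖ ≤ 1 := by simpa using hz
    have hsz : (s : ℂ) * z ∈ ball (0 : ℂ) 1 := by
      have : ‖(s : ℂ) * z‖ < 1 := by
        rw [norm_mul, Complex.norm_real, Real.norm_eq_abs, abs_of_pos hs0]
        nlinarith [norm_nonneg z]
      simpa using this
    have h2 : ContinuousAt f ((s : ℂ) * z) := (hf _ hsz).1
    exact (ContinuousAt.comp (g := f) (f := fun z : ℂ => (s : ℂ) * z) h2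
      (hasDeriv_scale s z).continuousAt).continuousWithinAt
  have hh1 : HY.HolD n (fun z : ℂ => f (s * z)) := HolD.scale hs0 hs1.le hf
  obtain ⟨δ, T, hT⟩ := h9 _ hc1 hh1
  obtain ⟨U, F, hU0, hF, hFe⟩ := h1 _ δ T hT s hs0 hs1
  have hx0 : f ((s : ℂ) * 0) = x0 := by rw [mul_zero, hf0]
  simp only [hx0] at hU0 hFe
  have hPhi : S x0 - ε / 2 ≤ Phi w g c r (F x0) := by
    have h3 : Phi w g c r (F x0) = Phi w g c r (fun z => f (((s * s : ℝ) : ℂ) * z)) := by
      refine Phi_congr hr1.le fun z hz => ?_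
      rw [hFe z hz]
      congr 1
      push_cast
      ring
    have h4 := (hρ (s * s) hss hss1).1
    rw [h3]
    linarith
  have hcont := (f3 n X U F hF w g hw hg).2 c r hr hr1.le
  have hev1 : ∀ᶠ x in 𝓝 x0, Phi w g c r (F x0) - ε / 4 < Phi w g c r (F x) := by
    have h5 : Tendsto (fun x => Phi w g c r (F x)) (𝓝[U] x0) (𝓝 (Phi w g c r (F x0))) :=
      hcont x0 hU0
    rw [hF.isOpen.nhdsWithin_eq hU0] at h5
    exact h5.eventually (lt_mem_nhds (by linarith))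
  have hev2 : ∀ᶠ x in 𝓝 x0, S x < S x0 + ε / 4 := hS x0 _ (by linarith)
  obtain ⟨V, hVs, hVo, hVx⟩ := eventually_nhds_iff.1
    ((hev1.and hev2).and (hF.isOpen.mem_nhds hU0 : ∀ᶠ x in 𝓝 x0, x ∈ U))
  refine ⟨V, F, hVx, hF.mono hVo fun x hx => (hVs x hx).2, fun x hx => ?_⟩
  have h6 := (hVs x hx).1
  linarith [h6.1, h6.2]

theorem f4_of' (h1 : F1 n X)
    (h9 : ∀ f : ℂ → X, ContinuousOn f (closedBall 0 1) → HY.HolD n f →
      ∃ (δ : ℝ) (F : ℂ → Cm n → X), HY.HolTube f δ F) : F4 n X := by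
  intro w g hw hg c r hc hr hr1 S hS hmax ε hε
  choose V F hV hF hS' using fun x0 : X => exists_nbhd h1 h9 hw hg hc hr hr1 hS hmax hε x0
  obtain ⟨t, ht⟩ := isCompact_univ.elim_nhds_subcover V
    fun x _ => (hF x).isOpen.mem_nhds (hV x)
  refine ⟨t.card, fun i => V (t.equivFin.symm i), fun i => F (t.equivFin.symm i),
    fun i => hF _, fun x => ?_, fun i x hx => hS' _ x hx⟩
  obtain ⟨y, hy, hxy⟩ := mem_iUnion₂.1 (ht.2 (mem_univ x))
  refine ⟨t.equivFin ⟨y, hy⟩, ?_⟩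
  simpa using hxy

end

theorem f4_of (n : ℕ) (X : Type) [TopologicalSpace X] [ChartedSpace (Cm n) X]
    [IsManifold 𝓘(ℂ, Cm n) ω X] [T2Space X] [CompactSpace X] [MeasurableSpace X] [BorelSpace X]
    (h1 : F1 n X) (h9 : HY.B9 n X) : F4 n X := f4_of' h1 h9

end Vale.Agent.P272.FAM
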