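import Vale.Agent.P272.FAM.Defs
import Vale.Agent.P272.K.C2.PosLin

/-!
# P272 / FAM / F5: the Borel family of discs, its push-forward measure and (C*)
-/

open scoped Manifold ContDiff ComplexOrder Topology ENNReal NNReal
open MeasureTheory Metric Set Filter

set_option linter.unusedSectionVars false

noncomputable section

namespace Vale.Agent.P272.FAM

open Vale.Agent.P272.K
open Vale.Agent.P272.K.AMP (volX trX)

namespace F5

/-! ### linear algebra -/

section lin
variable {n : ℕ}

lemma quad_smul_sub (c : ℂ) (A W : Matrix (Fin n) (Fin n) ℂ) (v : Cm n) :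
    quad (c • A - W) v = c * quad A v - quad W v := by
  unfold quad
  rw [Finset.mul_sum, ← Finset.sum_sub_distrib]
  refine Finset.sum_congr rfl fun i _ => ?_
  rw [Finset.mul_sum, ← Finset.sum_sub_distrib]
  refine Finset.sum_congr rfl fun j _ => ?_
  simp only [Matrix.sub_apply, Matrix.smul_apply, smul_eq_mul]
  ring

/-- `|v|²_W ≤ tr(A⁻¹ W) |v|²_A` -/
lemma quad_le_trace {A W : Matrix (Fin n) (Fin n) ℂ} (hA : A.PosDef) (hW : W.PosDef) (v : Cm n) :
    (quad W v).re ≤ (A⁻¹ * W).trace.re * (quad A v).re := by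
  have h := quad_nonneg (C2.trace_smul_sub_posSemidef hA hW.posSemidef) v
  rw [quad_smul_sub, Complex.sub_re, Complex.mul_re, quad_im hA.isHermitian, mul_zero,
    sub_zero] at h
  linarith

end lin

section spd
variable {n : ℕ} {X : Type*} [TopologicalSpace X] [ChartedSpace (Cm n) X]

lemma spd_le_trX {a w : Chart n X → Cm n → Matrix (Fin n) (Fin n) ℂ} (ha : IsHermitian a)
    (hw : IsHermitian w) (f : ℂ → X) (z : ℂ) :
    BR.spd w f z ≤ trX a w (f z) * BR.spd a f z :=
  quad_le_trace (ha.posDef _ _ (BR.at_chartAt _)) (hw.posDef _ _ (BR.at_chartAt _)) _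

lemma spd_mul_inv_le {a w : Chart n X → Cm n → Matrix (Fin n) (Fin n) ℂ} (ha : IsHermitian a)
    (hw : IsHermitian w) (f : ℂ → X) (z : ℂ) {G : ℝ} (hG : 0 ≤ G) :
    ENNReal.ofReal (G * BR.spd w f z) * ENNReal.ofReal ((trX a w (f z))⁻¹) ≤
      ENNReal.ofReal (G * BR.spd a f z) := by
  rcases le_or_gt (trX a w (f z)) 0 with h | h
  · rw [ENNReal.ofReal_of_nonpos (inv_nonpos.2 h), mul_zero]
    exact bot_le
  · have h0 : 0 ≤ (trX a w (f z))⁻¹ := inv_nonneg.2 h.le
    rw [mul_comm, ← ENNReal.ofReal_mul h0]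
    refine ENNReal.ofReal_le_ofReal ?_
    have h1 := spd_le_trX ha hw f z
    calc (trX a w (f z))⁻¹ * (G * BR.spd w f z)
        ≤ (trX a w (f z))⁻¹ * (G * (trX a w (f z) * BR.spd a f z)) := by gcongr
      _ = G * BR.spd a f z := by
          field_simp

end spd

/-! ### measurability -/

lemma measurable_glue {α β ι : Type*} [MeasurableSpace α] [MeasurableSpace β] [Countable ι]
    [MeasurableSpace ι] [MeasurableSingletonClass ι] {κ : α → ι} (hκ : Measurable κ)
    {f : ι → α → β} (hf : ∀ i, Measurable (f i)) : Measurable fun x => f (κ x) x := by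
  intro A hA
  have h : (fun x => f (κ x) x) ⁻¹' A = ⋃ i, κ ⁻¹' {i} ∩ f i ⁻¹' A := by
    ext x
    simp
  rw [h]
  exact MeasurableSet.iUnion fun i => (hκ (measurableSet_singleton i)).inter (hf i hA)

/-- a Borel index for a finite open cover -/
lemma exists_index {X : Type*} [TopologicalSpace X] [MeasurableSpace X] [BorelSpace X] {N : ℕ}
    {U : Fin N → Set X} (hU : ∀ i, IsOpen (U i)) (hc : ∀ x, ∃ i, x ∈ U i) :
    ∃ κ : X → Fin N, Measurable κ ∧ ∀ x, x ∈ U (κ x) := by
  classical
  have hp : ∀ x, ∃ k : ℕ, ∃ h : k < N, x ∈ U ⟨k, h⟩ := fun x => by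
    obtain ⟨i, hi⟩ := hc x
    exact ⟨i.1, i.2, hi⟩
  have hm : ∀ k : ℕ, MeasurableSet {x | ∃ h : k < N, x ∈ U ⟨k, h⟩} := fun k => by
    by_cases h : k < N
    · have : {x | ∃ h : k < N, x ∈ U ⟨k, h⟩} = U ⟨k, h⟩ := by
        ext x; simp [h]
      rw [this]
      exact (hU _).measurableSet
    · have : {x | ∃ h : k < N, x ∈ U ⟨k, h⟩} = ∅ := by
        ext x; simp [h]
      rw [this]
      exact MeasurableSet.empty
  have h1 : Measurable fun x => Nat.find (hp x) := measurable_find hp hm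
  refine ⟨fun x => ⟨Nat.find (hp x), (Nat.find_spec (hp x)).1⟩, ?_, fun x =>
    (Nat.find_spec (hp x)).2⟩
  refine measurable_to_countable' fun i => ?_
  have h2 : (fun x => (⟨Nat.find (hp x), (Nat.find_spec (hp x)).1⟩ : Fin N)) ⁻¹' {i} =
      (fun x => Nat.find (hp x)) ⁻¹' {i.1} := by
    ext x
    simp [Fin.ext_iff]
  rw [h2]
  exact h1 (measurableSet_singleton _)

section
variable {n : ℕ} {X : Type*} [TopologicalSpace X] [ChartedSpace (Cm n) X]
  [IsManifold 𝓘(ℂ, Cm n) ω X] [T2Space X] [CompactSpace X] [MeasurableSpace X] [BorelSpace X]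
  {U : Set X} {F : X → ℂ → X} {a w : Chart n X → Cm n → Matrix (Fin n) (Fin n) ℂ}

/-- the density of the energy, extended by `0` -/
def den (a : Chart n X → Cm n → Matrix (Fin n) (Fin n) ℂ) (r : ℝ) (U : Set X) (F : X → ℂ → X)
    (p : X × ℂ) : ℝ≥0∞ :=
  (U ×ˢ ball (0 : ℂ) r).indicator (fun p => ENNReal.ofReal (GJ.Gr r p.2 * BR.spd a (F p.1) p.2)) p

lemma measurable_den (hL : LocFam n U F) (ha : IsHermitian a) {r : ℝ} (hr : r ≤ 1) :
    Measurable (den a r U F) := by
  classical
  set s : Set (X × ℂ) := U ×ˢ ball (0 : ℂ) r with hs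
  have hsm : MeasurableSet s := hL.isOpen.measurableSet.prod measurableSet_ball
  have h1 : ContinuousOn (fun p : X × ℂ => BR.spd a (F p.1) p.2) s :=
    (hL.spdc a ha).mono (prod_mono le_rfl (ball_subset_ball hr))
  have h2 : Measurable (s.piecewise (fun p : X × ℂ => BR.spd a (F p.1) p.2) fun _ => 0) :=
    h1.measurable_piecewise continuousOn_const hsm
  have h3 : den a r U F = s.indicator fun p => ENNReal.ofReal
      (GJ.Gr r p.2 * s.piecewise (fun p : X × ℂ => BR.spd a (F p.1) p.2) (fun _ => 0) p) := by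
    funext p
    by_cases hp : p ∈ s
    · simp only [den, ← hs, indicator_of_mem hp, piecewise_eq_of_mem _ _ _ hp]
    · simp only [den, ← hs, indicator_of_notMem hp]
  rw [h3]
  exact (((GJ.measurable_Gr r).comp measurable_snd).mul h2).ennreal_ofReal.indicator hsm

lemma lintegral_den {x : X} (hx : x ∈ U) (r : ℝ) :
    ∫⁻ z, den a r U F (x, z) = HY.TE a r (F x) := by
  have h1 : (fun z => den a r U F (x, z)) =
      (ball (0 : ℂ) r).indicator fun z => ENNReal.ofReal (GJ.Gr r z * BR.spd a (F x) z) := by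
    funext z
    by_cases hz : z ∈ ball (0 : ℂ) r
    · rw [indicator_of_mem hz, den, indicator_of_mem (mk_mem_prod hx hz)]
    · rw [indicator_of_notMem hz, den, indicator_of_notMem fun h => hz h.2]
  rw [h1, lintegral_indicator measurableSet_ball]
  rfl


lemma lintegral_Gr {r : ℝ} (hr : 0 < r) :
    ∫⁻ z in ball (0 : ℂ) r, ENNReal.ofReal (GJ.Gr r z) = ENNReal.ofReal (r ^ 2) := by
  rw [← ofReal_integral_eq_lintegral_ofReal (GJ.integrableOn_Gr hr), GJ.integral_Gr hr]
  filter_upwards [ae_restrict_mem measurableSet_ball] with z hz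
  exact GJ.Gr_nonneg hz

lemma den_le {C : ℝ} (hC : ∀ x ∈ U, ∀ z ∈ ball (0 : ℂ) 1, BR.spd a (F x) z ≤ C) {r : ℝ}
    (hr : r ≤ 1) (x : X) (z : ℂ) : den a r U F (x, z) ≤
      ENNReal.ofReal C * (ball (0 : ℂ) r).indicator (fun z => ENNReal.ofReal (GJ.Gr r z)) z := by
  unfold den
  by_cases hp : (x, z) ∈ U ×ˢ ball (0 : ℂ) r
  · rw [indicator_of_mem hp, indicator_of_mem hp.2]
    have h0 := GJ.Gr_nonneg hp.2
    rw [mul_comm (ENNReal.ofReal C), ← ENNReal.ofReal_mul h0]
    refine ENNReal.ofReal_le_ofReal ?_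
    have := hC x hp.1 z (ball_subset_ball hr hp.2)
    dsimp only
    gcongr
  · rw [indicator_of_notMem hp]
    exact bot_le

lemma TE_le {C : ℝ} (hC : ∀ x ∈ U, ∀ z ∈ ball (0 : ℂ) 1, BR.spd a (F x) z ≤ C) {r : ℝ}
    (h0 : 0 < r) (hr : r ≤ 1) {x : X} (hx : x ∈ U) :
    HY.TE a r (F x) ≤ ENNReal.ofReal C * ENNReal.ofReal (r ^ 2) := by
  rw [← lintegral_den hx r, ← lintegral_Gr h0, ← lintegral_indicator measurableSet_ball,
    ← lintegral_const_mul _ ((GJ.measurable_Gr r).ennreal_ofReal.indicator measurableSet_ball)]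
  exact lintegral_mono fun z => den_le hC hr x z

end

/-! ### the glued family -/

section glue
variable {n : ℕ} {X : Type*} [TopologicalSpace X] [ChartedSpace (Cm n) X]
  [IsManifold 𝓘(ℂ, Cm n) ω X] [T2Space X] [CompactSpace X] [MeasurableSpace X] [BorelSpace X]
  {N : ℕ} {U : Fin N → Set X} {F : Fin N → X → ℂ → X}
  {a w : Chart n X → Cm n → Matrix (Fin n) (Fin n) ℂ}

open scoped Classical in
/-- the `i`-th family, extended by `x` -/
def ext (U : Set X) (F : X → ℂ → X) (p : X × ℂ) : X :=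
  (U ×ˢ ball (0 : ℂ) 1).piecewise (fun p : X × ℂ => F p.1 p.2) Prod.fst p

omit [IsManifold 𝓘(ℂ, Cm n) ω X] [T2Space X] [CompactSpace X] [ChartedSpace (Cm n) X]
  [MeasurableSpace X] [BorelSpace X] in
lemma ext_eq {U : Set X} {F : X → ℂ → X} {x : X} (hx : x ∈ U) {z : ℂ}
    (hz : z ∈ ball (0 : ℂ) 1) : ext U F (x, z) = F x z := by
  classical
  unfold ext
  rw [piecewise_eq_of_mem _ _ _ (mk_mem_prod hx hz)]

lemma measurable_ext {U : Set X} {F : X → ℂ → X} (hL : LocFam n U F) : Measurable (ext U F) := by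
  classical
  exact hL.cont.measurable_piecewise continuous_fst.continuousOn
    (hL.isOpen.measurableSet.prod measurableSet_ball)

lemma measurable_D (hL : ∀ i, LocFam n (U i) (F i)) {κ : X → Fin N} (hκ : Measurable κ)
    (ha : IsHermitian a) {r : ℝ} (hr : r ≤ 1) :
    Measurable fun p : X × ℂ => den a r (U (κ p.1)) (F (κ p.1)) p :=
  measurable_glue (κ := fun p : X × ℂ => κ p.1) (f := fun i p => den a r (U i) (F i) p)
    (hκ.comp measurable_fst) fun i => measurable_den (hL i) ha hr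

lemma measurable_g (hL : ∀ i, LocFam n (U i) (F i)) {κ : X → Fin N} (hκ : Measurable κ) :
    Measurable fun p : X × ℂ => ext (U (κ p.1)) (F (κ p.1)) p :=
  measurable_glue (κ := fun p : X × ℂ => κ p.1) (f := fun i p => ext (U i) (F i) p)
    (hκ.comp measurable_fst) fun i => measurable_ext (hL i)

/-- the push-forward measure has bounded density -/
lemma push_le (hw : IsHermitian w) (hL : ∀ i, LocFam n (U i) (F i)) {κ : X → Fin N}
    (hκ : Measurable κ) (hκU : ∀ x, x ∈ U (κ x)) {Cw : Fin N → ℝ}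
    (hCw : ∀ i, ∀ x ∈ U i, ∀ z ∈ ball (0 : ℂ) 1, BR.spd w (F i x) z ≤ Cw i) {Cd : Fin N → ℝ≥0}
    (hCd : ∀ i, ∀ z ∈ ball (0 : ℂ) 1, ∀ A : Set X, MeasurableSet A →
      volX w (U i ∩ {x | F i x z ∈ A}) ≤ Cd i * volX w A) {μ : Measure X} [SFinite μ] {K : ℝ≥0}
    (hμ : μ ≤ K • volX w) :
    ((μ.prod volume).withDensity fun p : X × ℂ => den w 1 (U (κ p.1)) (F (κ p.1)) p).map
      (fun p : X × ℂ => ext (U (κ p.1)) (F (κ p.1)) p) ≤
      (((∑ i, Cd i) * (∑ i, |Cw i|).toNNReal) * K) • volX w := by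
  classical
  set D : X × ℂ → ℝ≥0∞ := fun p : X × ℂ => den w 1 (U (κ p.1)) (F (κ p.1)) p with hD
  set g : X × ℂ → X := fun p : X × ℂ => ext (U (κ p.1)) (F (κ p.1)) p with hg
  have hDm : Measurable D := measurable_D hL hκ hw le_rfl
  have hgm : Measurable g := measurable_g hL hκ
  refine Measure.le_iff.2 fun A hA => ?_
  rw [Measure.map_apply hgm hA, withDensity_apply _ (hgm hA),
    ← lintegral_indicator (hgm hA), lintegral_prod_symm' _ (hDm.indicator (hgm hA))]
  set Cs : ℝ := ∑ i, |Cw i| with hCs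
  have hCle : ∀ i, Cw i ≤ Cs := fun i => (le_abs_self _).trans
    (Finset.single_le_sum (f := fun i => |Cw i|) (fun i _ => abs_nonneg _) (Finset.mem_univ i))
  set G : ℂ → ℝ≥0∞ := (ball (0 : ℂ) 1).indicator fun z => ENNReal.ofReal (GJ.Gr 1 z) with hG
  have hGm : Measurable G := (GJ.measurable_Gr 1).ennreal_ofReal.indicator measurableSet_ball
  set S : ℝ≥0∞ := ∑ i, (Cd i : ℝ≥0∞) with hS
  -- the measure of the sections
  have hsec : ∀ z ∈ ball (0 : ℂ) 1, μ {x | g (x, z) ∈ A} ≤ K * (S * volX w A) := by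
    intro z hz
    have h1 : {x | g (x, z) ∈ A} ⊆ ⋃ i, U i ∩ {x | F i x z ∈ A} := by
      intro x hx
      refine mem_iUnion.2 ⟨κ x, hκU x, ?_⟩
      have h2 : g (x, z) ∈ A := hx
      have h3 : g (x, z) = F (κ x) x z := ext_eq (hκU x) hz
      rw [h3] at h2
      exact h2
    calc μ {x | g (x, z) ∈ A} ≤ (K • volX w) {x | g (x, z) ∈ A} := hμ _
      _ ≤ (K • volX w) (⋃ i, U i ∩ {x | F i x z ∈ A}) := measure_mono h1
      _ = K * volX w (⋃ i, U i ∩ {x | F i x z ∈ A}) := rfl
      _ ≤ K * ∑ i, volX w (U i ∩ {x | F i x z ∈ A}) := by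
          gcongr
          exact measure_iUnion_fintype_le _ _
      _ ≤ K * ∑ i, (Cd i * volX w A) := by
          gcongr with i
          exact hCd i z hz A hA
      _ = K * (S * volX w A) := by rw [hS, Finset.sum_mul]
  have hin : ∀ z, ∫⁻ x, (g ⁻¹' A).indicator D (x, z) ∂μ ≤
      (ENNReal.ofReal Cs * G z) * (K * (S * volX w A)) := by
    intro z
    by_cases hz : z ∈ ball (0 : ℂ) 1
    · have hm1 : MeasurableSet {x | g (x, z) ∈ A} := (hgm.comp measurable_prodMk_right) hA
      have h1 : ∀ x, (g ⁻¹' A).indicator D (x, z) ≤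
          {x | g (x, z) ∈ A}.indicator (fun _ => ENNReal.ofReal Cs * G z) x := by
        intro x
        by_cases hx : (x, z) ∈ g ⁻¹' A
        · have hx' : x ∈ {x | g (x, z) ∈ A} := hx
          rw [indicator_of_mem hx, indicator_of_mem hx']
          exact den_le (fun x hx z hz => (hCw _ x hx z hz).trans (hCle _)) le_rfl x z
        · rw [indicator_of_notMem hx]
          exact bot_le
      calc ∫⁻ x, (g ⁻¹' A).indicator D (x, z) ∂μ
          ≤ ∫⁻ x, {x | g (x, z) ∈ A}.indicator (fun _ => ENNReal.ofReal Cs * G z) x ∂μ :=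
            lintegral_mono h1
        _ = (ENNReal.ofReal Cs * G z) * μ {x | g (x, z) ∈ A} := by
            rw [lintegral_indicator hm1, setLIntegral_const]
        _ ≤ _ := by
            gcongr
            exact hsec z hz
    · have h1 : ∀ x, (g ⁻¹' A).indicator D (x, z) = 0 := by
        intro x
        by_cases hx : (x, z) ∈ g ⁻¹' A
        · rw [indicator_of_mem hx, hD]
          dsimp only
          rw [den, indicator_of_notMem fun h => hz h.2]
        · rw [indicator_of_notMem hx]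
      simp only [h1, lintegral_zero]
      exact bot_le
  calc ∫⁻ z, ∫⁻ x, (g ⁻¹' A).indicator D (x, z) ∂μ
      ≤ ∫⁻ z, (ENNReal.ofReal Cs * G z) * (K * (S * volX w A)) := lintegral_mono hin
    _ = ENNReal.ofReal Cs * (K * (S * volX w A)) := by
        rw [lintegral_mul_const _ (hGm.const_mul _), lintegral_const_mul _ hGm, hG,
          lintegral_indicator measurableSet_ball, lintegral_Gr one_pos]
        simp
    _ = _ := by
        rw [Measure.smul_apply, hS]
        simp only [ENNReal.smul_def, smul_eq_mul, ENNReal.coe_mul, ENNReal.ofNNReal_finsetSum]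
        rw [ENNReal.ofReal]
        ring

end glue

end F5

section main
variable {n : ℕ} {X : Type*} [TopologicalSpace X] [ChartedSpace (Cm n) X]
  [IsManifold 𝓘(ℂ, Cm n) ω X] [T2Space X] [CompactSpace X] [MeasurableSpace X] [BorelSpace X]

open F5 in
/-- **F5** -/
theorem f5 : FAM.F5 n X := by
  classical
  intro w hw N U F hL hc
  obtain ⟨κ, hκ, hκU⟩ := exists_index (fun i => (hL i).isOpen) hc
  have hDi : ∀ (a : Chart n X → Cm n → Matrix (Fin n) (Fin n) ℂ) (r : ℝ) (x : X),
      ∫⁻ z, den a r (U (κ x)) (F (κ x)) (x, z) = HY.TE a r (F (κ x) x) :=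
    fun a r x => lintegral_den (hκU x) r
  refine ⟨κ, hκ, hκU, fun a ha r h0 hr => ⟨?_, ?_⟩, ?_⟩
  · have h1 := (measurable_D hL hκ ha hr).lintegral_prod_right' (ν := (volume : Measure ℂ))
    simpa only [hDi] using h1
  · choose C hC using fun i => (hL i).spdb a ha
    refine ⟨(∑ i, |C i|) * r ^ 2, fun x => (TE_le (hC (κ x)) h0 hr (hκU x)).trans ?_⟩
    rw [← ENNReal.ofReal_mul' (by positivity)]
    refine ENNReal.ofReal_le_ofReal ?_
    gcongr
    exact (le_abs_self _).trans
      (Finset.single_le_sum (f := fun i => |C i|) (fun i _ => abs_nonneg _) (Finset.mem_univ _))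
  · choose Cw hCw using fun i => (hL i).spdb w hw
    choose Cd hCd using fun i => (hL i).dens w hw
    refine ⟨(∑ i, Cd i) * (∑ i, |Cw i|).toNNReal, fun μ K hμ => ?_⟩
    have hfin : IsFiniteMeasure (volX w) := AMP.isFiniteMeasure_volX hw
    have hfin2 : IsFiniteMeasure (K • volX w) := inferInstance
    have hμf : IsFiniteMeasure μ := isFiniteMeasure_of_le _ hμ
    refine ⟨_, push_le hw hL hκ hκU hCw hCd hμ, ?_, fun a ha => ?_⟩
    · rw [Measure.map_apply (measurable_g hL hκ) MeasurableSet.univ, preimage_univ,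
        withDensity_apply _ MeasurableSet.univ, setLIntegral_univ,
        lintegral_prod _ (measurable_D hL hκ hw le_rfl).aemeasurable]
      exact lintegral_congr fun x => hDi w 1 x
    · refine (lintegral_map_le _ _).trans ?_
      refine (lintegral_withDensity_le_lintegral_mul _ (measurable_D hL hκ hw le_rfl) _).trans ?_
      calc _ ≤ ∫⁻ p : X × ℂ, den a 1 (U (κ p.1)) (F (κ p.1)) p ∂(μ.prod volume) := by
            refine lintegral_mono fun p => ?_
            obtain ⟨x, z⟩ := p
            by_cases hz : z ∈ ball (0 : ℂ) 1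
            · have hp : (x, z) ∈ U (κ x) ×ˢ ball (0 : ℂ) 1 := ⟨hκU x, hz⟩
              simp only [Pi.mul_apply]
              rw [den, den, indicator_of_mem hp, indicator_of_mem hp, ext_eq (hκU x) hz]
              exact spd_mul_inv_le ha hw _ _ (GJ.Gr_nonneg hz)
            · have hp : (x, z) ∉ U (κ x) ×ˢ ball (0 : ℂ) 1 := fun h => hz h.2
              simp only [Pi.mul_apply]
              rw [den, den, indicator_of_notMem hp, zero_mul]
              exact bot_le
        _ = _ := by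
            rw [lintegral_prod _ (measurable_D hL hκ ha le_rfl).aemeasurable]
            exact lintegral_congr fun x => hDi a 1 x

end main

end Vale.Agent.P272.FAM
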