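import Vale.Agent.P272.K.AMP.Vol

/-! # P272 / FAM: the measure `volX` in a chart (block VOLCHART) -/

open scoped Manifold ContDiff ComplexOrder ComplexConjugate Topology ENNReal NNReal
open MeasureTheory Set Filter

noncomputable section

namespace Vale.Agent.P272.FAM

open Vale.Agent.P272.K Vale.Agent.P272.K.AMP
open Vale.Agent.P272.K.INT (IsDensity intX part Part transition_contDiffAt det_trans)

section
variable {n : ℕ} {X : Type*} [TopologicalSpace X] [ChartedSpace (Cm n) X]
  [IsManifold 𝓘(ℂ, Cm n) ω X]

/-- change of variables between two charts, for an arbitrary function `h` on `X` -/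
theorem lintegral_change {D : Chart n X → Cm n → ℝ} (hD : IsDensity D) {e e' : Chart n X}
    (he : e ∈ atlas (Cm n) X) (he' : e' ∈ atlas (Cm n) X) (h : X → ℝ≥0∞) :
    ∫⁻ z in e.target ∩ e.symm ⁻¹' e'.source, h (e.symm z) * ENNReal.ofReal (D e z) =
      ∫⁻ z in e'.target ∩ e'.symm ⁻¹' e.source, h (e'.symm z) * ENNReal.ofReal (D e' z) := by
  set S := e.symm ≫ₕ e' with hS
  have hsrc : S.source = e.target ∩ e.symm ⁻¹' e'.source := by
    rw [hS, OpenPartialHomeomorph.trans_source]; rfl
  have htgt : S.target = e'.target ∩ e'.symm ⁻¹' e.source := by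
    rw [hS, OpenPartialHomeomorph.trans_target]; rfl
  have e3 : (S : Cm n → Cm n) '' S.source = S.target := S.image_source_eq_target
  have hd : ∀ z ∈ S.source, HasFDerivWithinAt S (fderiv ℝ S z) S.source z := by
    intro z hz
    rw [hsrc] at hz
    have hx : At e (e.symm z) := ⟨he, e.map_target hz.1⟩
    have hx' : At e' (e.symm z) := ⟨he', hz.2⟩
    have h := transition_contDiffAt hx hx'
    rw [e.right_inv hz.1] at h
    have h' : DifferentiableAt ℝ (fun z => e' (e.symm z)) z :=
      (h.differentiableAt (by simp)).restrictScalars ℝ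
    exact h'.hasFDerivAt.hasFDerivWithinAt
  rw [← hsrc, ← htgt, ← e3, lintegral_image_eq_lintegral_abs_det_fderiv_mul volume
    S.open_source.measurableSet hd S.injOn]
  apply setLIntegral_congr_fun S.open_source.measurableSet
  intro z hz
  rw [hsrc] at hz
  have hx : At e (e.symm z) := ⟨he, e.map_target hz.1⟩
  have hx' : At e' (e.symm z) := ⟨he', hz.2⟩
  have hdet : (fderiv ℝ S z).det = ‖(jacM e e' (e.symm z)).det‖ ^ 2 := by
    have := det_trans hx hx'
    rw [e.right_inv hz.1] at this
    exact this
  have hch := hD.change e e' (e.symm z) hx hx'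
  rw [e.right_inv hz.1] at hch
  have hSz : S z = e' (e.symm z) := rfl
  simp only
  rw [hdet, hSz, e'.left_inv hz.2, hch, abs_of_nonneg (by positivity),
    ENNReal.ofReal_mul' (by positivity)]
  ring

variable [T2Space X] [CompactSpace X] [MeasurableSpace X] [BorelSpace X]

omit [ChartedSpace (Cm n) X] [IsManifold 𝓘(ℂ, Cm n) ω X] [T2Space X] [CompactSpace X] in
lemma measurableSet_preim (e : Chart n X) {A : Set X} (hA : MeasurableSet A) :
    MeasurableSet (e.target ∩ e.symm ⁻¹' A) := by
  have h1 : Measurable (e.target.domRestrict e.symm) :=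
    (continuousOn_iff_continuous_domRestrict.1 e.continuousOn_symm).measurable
  have h2 := h1 hA
  have h3 := (MeasurableEmbedding.subtype_coe e.open_target.measurableSet).measurableSet_image' h2
  convert h3 using 1
  ext z
  simp [Set.domRestrict, and_comm]

/-- the integral over a chart domain -/
theorem lintegral_volD {D : Chart n X → Cm n → ℝ} (hD : IsDensity D) {e : Chart n X}
    (he : e ∈ atlas (Cm n) X) {h : X → ℝ≥0∞} (hh : Measurable h) :
    ∫⁻ x in e.source, h x ∂(volD D) =
      ∫⁻ z in e.target, h (e.symm z) * ENNReal.ofReal (D e z) := by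
  set P := part n X with hP
  have hsm : MeasurableSet e.source := e.open_source.measurableSet
  have htm : MeasurableSet e.target := e.open_target.measurableSet
  have hsymm : AEMeasurable e.symm (volume.restrict e.target) :=
    e.continuousOn_symm.aemeasurable htm
  have hDe : AEMeasurable (fun z => ENNReal.ofReal (D e z)) (volume.restrict e.target) :=
    ((hD.continuousOn he).aemeasurable htm).ennreal_ofReal
  have key : ∀ i : Fin P.N, ∫⁻ x, e.source.indicator h x ∂((volPiece D i).map (P.e i).symm) =
      ∫⁻ z in e.target, ENNReal.ofReal (P.ρ i (e.symm z)) * h (e.symm z) *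
        ENNReal.ofReal (D e z) := by
    intro i
    have him : Measurable (e.source.indicator h) := hh.indicator hsm
    rw [lintegral_map' him.aemeasurable (aemeasurable_symm D i)]
    have hti : MeasurableSet (P.e i).target := (P.e i).open_target.measurableSet
    have hsi : AEMeasurable (P.e i).symm (volume.restrict (P.e i).target) :=
      (P.e i).continuousOn_symm.aemeasurable hti
    have h1 : AEMeasurable (fun z => ENNReal.ofReal
        (P.ρ i ((P.e i).symm z) * D (P.e i) z)) (volume.restrict (P.e i).target) :=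
      (dens_aemeasurable hD i).ennreal_ofReal
    unfold volPiece
    refine (lintegral_withDensity_eq_lintegral_mul₀ h1
      (g := fun z => e.source.indicator h ((P.e i).symm z)) (him.comp_aemeasurable hsi)).trans ?_
    have h2 : ∫⁻ z in (P.e i).target, ((fun z => ENNReal.ofReal
        (P.ρ i ((P.e i).symm z) * D (P.e i) z)) * fun z => e.source.indicator h ((P.e i).symm z)) z
        = ∫⁻ z in (P.e i).target ∩ (P.e i).symm ⁻¹' e.source,
          (ENNReal.ofReal (P.ρ i ((P.e i).symm z)) * h ((P.e i).symm z)) *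
            ENNReal.ofReal (D (P.e i) z) := by
      have hopen : IsOpen ((P.e i).target ∩ (P.e i).symm ⁻¹' e.source) :=
        (P.e i).isOpen_inter_preimage_symm e.open_source
      rw [← lintegral_indicator hti, ← lintegral_indicator hopen.measurableSet]
      congr 1
      ext z
      by_cases hz : z ∈ (P.e i).target
      · by_cases hz' : (P.e i).symm z ∈ e.source
        · rw [indicator_of_mem hz, indicator_of_mem (show z ∈ (P.e i).target ∩
            (P.e i).symm ⁻¹' e.source from ⟨hz, hz'⟩)]
          simp only [Pi.mul_apply, indicator_of_mem hz']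
          rw [ENNReal.ofReal_mul (P.nonneg i _)]
          ring
        · rw [indicator_of_mem hz, indicator_of_notMem (fun h => hz' h.2)]
          simp only [Pi.mul_apply, indicator_of_notMem hz', mul_zero]
      · rw [indicator_of_notMem hz, indicator_of_notMem (fun h => hz h.1)]
    rw [h2, lintegral_change hD (P.mem i) he (fun x => ENNReal.ofReal (P.ρ i x) * h x)]
    have hopen : IsOpen (e.target ∩ e.symm ⁻¹' (P.e i).source) :=
      e.isOpen_inter_preimage_symm (P.e i).open_source
    rw [← lintegral_indicator htm, ← lintegral_indicator hopen.measurableSet]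
    congr 1
    ext z
    by_cases hz : z ∈ e.target
    · by_cases hz' : e.symm z ∈ (P.e i).source
      · rw [indicator_of_mem hz, indicator_of_mem (show z ∈ e.target ∩
          e.symm ⁻¹' (P.e i).source from ⟨hz, hz'⟩)]
      · rw [indicator_of_mem hz, indicator_of_notMem (fun h => hz' h.2)]
        have : P.ρ i (e.symm z) = 0 :=
          image_eq_zero_of_notMem_tsupport fun h => hz' (P.supp i h)
        rw [this]; simp
    · rw [indicator_of_notMem hz, indicator_of_notMem (fun h => hz h.1)]
  rw [← lintegral_indicator hsm]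
  unfold volD
  rw [lintegral_finsetSum_measure, Finset.sum_congr rfl fun i _ => key i,
    ← lintegral_finsetSum']
  · refine setLIntegral_congr_fun htm fun z hz => ?_
    have : ∀ i, ENNReal.ofReal (P.ρ i (e.symm z)) * h (e.symm z) * ENNReal.ofReal (D e z) =
        ENNReal.ofReal (P.ρ i (e.symm z)) * (h (e.symm z) * ENNReal.ofReal (D e z)) := by
      intro i; ring
    rw [Finset.sum_congr rfl fun i _ => this i, ← Finset.sum_mul,
      ← ENNReal.ofReal_sum_of_nonneg (fun i _ => P.nonneg i _), P.sum, ENNReal.ofReal_one, one_mul]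
  · intro i _
    exact ((((P.cont i).measurable.comp_aemeasurable hsymm).ennreal_ofReal).mul
      (hh.comp_aemeasurable hsymm)).mul hDe

/-- **VOLCHART**: the measure of a measurable set in a chart -/
theorem volD_inter_source {D : Chart n X → Cm n → ℝ} (hD : IsDensity D) {e : Chart n X}
    (he : e ∈ atlas (Cm n) X) {A : Set X} (hA : MeasurableSet A) :
    volD D (A ∩ e.source) = ∫⁻ z in e.target ∩ e.symm ⁻¹' A, ENNReal.ofReal (D e z) := by
  have h := lintegral_volD hD he (h := A.indicator 1) (measurable_one.indicator hA)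
  have hsm : MeasurableSet e.source := e.open_source.measurableSet
  rw [lintegral_indicator_one hA, Measure.restrict_apply hA] at h
  rw [h]
  have htm : MeasurableSet e.target := e.open_target.measurableSet
  have hAm : MeasurableSet (e.target ∩ e.symm ⁻¹' A) := measurableSet_preim e hA
  rw [← lintegral_indicator htm, ← lintegral_indicator hAm]
  congr 1
  ext z
  by_cases hz : z ∈ e.target
  · by_cases hz' : e.symm z ∈ A
    · rw [indicator_of_mem hz, indicator_of_mem (show z ∈ e.target ∩ e.symm ⁻¹' A from ⟨hz, hz'⟩),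
        indicator_of_mem hz']
      simp
    · have h5 : z ∉ e.target ∩ e.symm ⁻¹' A := fun h6 => hz' h6.2
      rw [indicator_of_mem hz, indicator_of_notMem h5, indicator_of_notMem hz', zero_mul]
  · have h5 : z ∉ e.target ∩ e.symm ⁻¹' A := fun h6 => hz h6.1
    rw [indicator_of_notMem hz, indicator_of_notMem h5]

omit [IsManifold 𝓘(ℂ, Cm n) ω X] [T2Space X] [CompactSpace X] [MeasurableSpace X]
  [BorelSpace X] in
/-- a continuous positive function on a compact subset of a chart lies between two constants -/
lemma bounds_on_compact {D : Chart n X → Cm n → ℝ} (hD : IsDensity D)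
    (h0 : ∀ e x, At e x → 0 < D e (e x)) {e : Chart n X} (he : e ∈ atlas (Cm n) X)
    {K : Set (Cm n)} (hK : IsCompact K) (hKe : K ⊆ e.target) :
    ∃ c C : ℝ, 0 < c ∧ 0 < C ∧ ∀ z ∈ K, c ≤ D e z ∧ D e z ≤ C := by
  rcases K.eq_empty_or_nonempty with rfl | hne
  · exact ⟨1, 1, one_pos, one_pos, fun z hz => hz.elim⟩
  have hc : ContinuousOn (D e) K := (hD.continuousOn he).mono hKe
  obtain ⟨z₁, hz₁, h₁⟩ := hK.exists_isMinOn hne hc
  obtain ⟨z₂, hz₂, h₂⟩ := hK.exists_isMaxOn hne hc
  have hp : ∀ z ∈ K, 0 < D e z := fun z hz => by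
    have := h0 e (e.symm z) ⟨he, e.map_target (hKe hz)⟩
    rwa [e.right_inv (hKe hz)] at this
  exact ⟨D e z₁, D e z₂, hp z₁ hz₁, hp z₂ hz₂, fun z hz => ⟨h₁ hz, h₂ hz⟩⟩

/-- Lebesgue measure in a compact piece of a chart is bounded by the measure of `X` -/
theorem lintegral_le_volD {D : Chart n X → Cm n → ℝ} (hD : IsDensity D)
    (h0 : ∀ e x, At e x → 0 < D e (e x)) {e : Chart n X} (he : e ∈ atlas (Cm n) X)
    {K : Set (Cm n)} (hK : IsCompact K) (hKe : K ⊆ e.target) :
    ∃ C : ℝ≥0, 0 < C ∧ ∀ h : X → ℝ≥0∞, Measurable h →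
      ∫⁻ z in K, h (e.symm z) ≤ C * ∫⁻ x in e.source, h x ∂(volD D) := by
  obtain ⟨c, C, hc, hC, hb⟩ := bounds_on_compact hD h0 he hK hKe
  refine ⟨(c⁻¹).toNNReal, by simpa using hc, fun h hh => ?_⟩
  have h1 : ((c⁻¹).toNNReal : ℝ≥0∞) = ENNReal.ofReal c⁻¹ := rfl
  rw [lintegral_volD hD he hh, h1, ← lintegral_const_mul']
  · refine le_trans ?_ (lintegral_mono_set hKe)
    refine setLIntegral_mono' hK.measurableSet fun z hz => ?_
    calc h (e.symm z) = 1 * h (e.symm z) := (one_mul _).symm
      _ ≤ (ENNReal.ofReal c⁻¹ * ENNReal.ofReal (D e z)) * h (e.symm z) := by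
          gcongr
          rw [← ENNReal.ofReal_mul (by positivity), ← ENNReal.ofReal_one]
          refine ENNReal.ofReal_le_ofReal ?_
          rw [← inv_mul_cancel₀ hc.ne']
          exact mul_le_mul_of_nonneg_left (hb z hz).1 (by positivity)
      _ = ENNReal.ofReal c⁻¹ * (h (e.symm z) * ENNReal.ofReal (D e z)) := by ring
  · exact ENNReal.ofReal_ne_top

/-- the measure of `X` in a compact piece of a chart is bounded by Lebesgue measure -/
theorem volD_le_lintegral {D : Chart n X → Cm n → ℝ} (hD : IsDensity D)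
    (h0 : ∀ e x, At e x → 0 < D e (e x)) {e : Chart n X} (he : e ∈ atlas (Cm n) X)
    {K : Set (Cm n)} (hK : IsCompact K) (hKe : K ⊆ e.target) :
    ∃ C : ℝ≥0, 0 < C ∧ ∀ h : X → ℝ≥0∞, Measurable h →
      (∀ x ∈ e.source, e x ∉ K → h x = 0) →
      ∫⁻ x in e.source, h x ∂(volD D) ≤ C * ∫⁻ z in K, h (e.symm z) := by
  obtain ⟨c, C, hc, hC, hb⟩ := bounds_on_compact hD h0 he hK hKe
  refine ⟨C.toNNReal, by simpa using hC, fun h hh hz => ?_⟩
  have h1 : (C.toNNReal : ℝ≥0∞) = ENNReal.ofReal C := rfl
  rw [lintegral_volD hD he hh, h1, ← lintegral_const_mul' _ _ ENNReal.ofReal_ne_top,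
    ← lintegral_indicator e.open_target.measurableSet, ← lintegral_indicator hK.measurableSet]
  refine lintegral_mono fun z => ?_
  by_cases hzt : z ∈ e.target
  · rw [indicator_of_mem hzt]
    by_cases hzK : z ∈ K
    · rw [indicator_of_mem hzK, mul_comm]
      gcongr
      exact (hb z hzK).2
    · have : h (e.symm z) = 0 := hz _ (e.map_target hzt) (by rwa [e.right_inv hzt])
      rw [this, zero_mul]
      exact bot_le
  · rw [indicator_of_notMem hzt]
    exact bot_le

/-- comparison of two densities -/
theorem volD_le_smul {D D' : Chart n X → Cm n → ℝ} {c : ℝ≥0}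
    (h : ∀ e x, At e x → D e (e x) ≤ c * D' e (e x)) : volD D ≤ (c : ℝ≥0∞) • volD D' := by
  have key : ∀ i : Fin (part n X).N, volPiece D i ≤ (c : ℝ≥0∞) • volPiece D' i := by
    intro i
    unfold volPiece
    rw [← withDensity_smul' _ _ ENNReal.coe_ne_top]
    refine withDensity_mono ?_
    filter_upwards [self_mem_ae_restrict ((part n X).e i).open_target.measurableSet] with z hz
    have h1 := h ((part n X).e i) (((part n X).e i).symm z)
      ⟨(part n X).mem i, ((part n X).e i).map_target hz⟩
    rw [((part n X).e i).right_inv hz] at h1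
    simp only [Pi.smul_apply, smul_eq_mul]
    rw [← ENNReal.ofReal_coe_nnreal, ← ENNReal.ofReal_mul (by positivity)]
    refine ENNReal.ofReal_le_ofReal ?_
    calc _ ≤ (part n X).ρ i (((part n X).e i).symm z) * (c * D' ((part n X).e i) z) :=
          mul_le_mul_of_nonneg_left h1 ((part n X).nonneg i _)
      _ = _ := by ring
  unfold volD
  rw [Finset.smul_sum]
  refine Finset.sum_le_sum fun i _ => ?_
  rw [← Measure.map_smul]
  refine Measure.map_mono_of_aemeasurable (key i) ?_
  exact (aemeasurable_symm D' i).smul_measure _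

omit [IsManifold 𝓘(ℂ, Cm n) ω X] [T2Space X] [MeasurableSpace X] [BorelSpace X] in
/-- two positive densities are comparable -/
theorem exists_density_le {D D' : Chart n X → Cm n → ℝ} (hD : IsDensity D) (hD' : IsDensity D')
    (h0 : ∀ e x, At e x → 0 < D' e (e x)) :
    ∃ c : ℝ≥0, 0 < c ∧ ∀ e x, At e x → D e (e x) ≤ c * D' e (e x) := by
  set q : X → ℝ := fun x => D (chartAt (Cm n) x) (chartAt (Cm n) x x) /
    D' (chartAt (Cm n) x) (chartAt (Cm n) x x) with hq
  have hq' : ∀ e x, At e x → D e (e x) = q x * D' e (e x) := by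
    intro e x hx
    have hx0 : At (chartAt (Cm n) x) x := ⟨chart_mem_atlas _ x, mem_chart_source _ x⟩
    have h1 := hD.change e (chartAt (Cm n) x) x hx hx0
    have h2 := hD'.change e (chartAt (Cm n) x) x hx hx0
    have h3 := h0 _ _ hx0
    rw [h1, h2, hq]
    field_simp
  have hc : Continuous q := by
    rw [continuous_iff_continuousAt]
    intro x
    set e := chartAt (Cm n) x with he
    have hx : At e x := ⟨chart_mem_atlas _ x, mem_chart_source _ x⟩
    have h1 : ContinuousAt (fun y => D e (e y) / D' e (e y)) x :=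
      ((hD.cont e x hx).comp (f := e) (e.continuousAt hx.2)).div
        ((hD'.cont e x hx).comp (f := e) (e.continuousAt hx.2)) (h0 e x hx).ne'
    refine h1.congr ?_
    filter_upwards [e.open_source.mem_nhds hx.2] with y hy
    have hy' : At e y := ⟨hx.1, hy⟩
    rw [hq' e y hy', mul_div_cancel_right₀ _ (h0 e y hy').ne']
  obtain ⟨C, hC⟩ := (isCompact_range hc).isBounded.exists_norm_le
  have hpos : 0 < |C| + 1 := by positivity
  refine ⟨(|C| + 1).toNNReal, by simp, fun e x hx => ?_⟩
  rw [hq' e x hx, Real.coe_toNNReal _ hpos.le]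
  refine mul_le_mul_of_nonneg_right ?_ (h0 e x hx).le
  have h1 := hC (q x) (mem_range_self x)
  have h2 := le_abs_self (q x)
  have h3 := le_abs_self C
  rw [Real.norm_eq_abs] at h1
  linarith

section metric
variable {a : Chart n X → Cm n → Matrix (Fin n) (Fin n) ℂ}

/-- **VOLCHART** for a metric -/
theorem volX_inter_source (ha : IsHermitian a) {e : Chart n X} (he : e ∈ atlas (Cm n) X)
    {A : Set X} (hA : MeasurableSet A) :
    volX a (A ∩ e.source) = ∫⁻ z in e.target ∩ e.symm ⁻¹' A, ENNReal.ofReal (a e z).det.re :=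
  volD_inter_source (isDensity_det_metric ha) he hA

/-- **VOLCHART** for a metric and a measurable subset of the chart domain -/
theorem volX_eq_image (ha : IsHermitian a) {e : Chart n X} (he : e ∈ atlas (Cm n) X)
    {A : Set X} (hA : MeasurableSet A) (hs : A ⊆ e.source) :
    volX a A = ∫⁻ z in e '' A, ENNReal.ofReal (a e z).det.re := by
  rw [e.image_eq_target_inter_inv_preimage hs, ← volX_inter_source ha he hA,
    inter_eq_left.2 hs]

/-- the integral over a chart domain -/
theorem lintegral_volX (ha : IsHermitian a) {e : Chart n X} (he : e ∈ atlas (Cm n) X)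
    {h : X → ℝ≥0∞} (hh : Measurable h) :
    ∫⁻ x in e.source, h x ∂(volX a) =
      ∫⁻ z in e.target, h (e.symm z) * ENNReal.ofReal (a e z).det.re :=
  lintegral_volD (isDensity_det_metric ha) he hh

/-- integrals over a compact piece of a chart are bounded by integrals over `X` -/
theorem lintegral_le_volX (ha : IsHermitian a) {e : Chart n X} (he : e ∈ atlas (Cm n) X)
    {K : Set (Cm n)} (hK : IsCompact K) (hKe : K ⊆ e.target) :
    ∃ C : ℝ≥0, 0 < C ∧ ∀ h : X → ℝ≥0∞, Measurable h →
      ∫⁻ z in K, h (e.symm z) ≤ C * ∫⁻ x, h x ∂(volX a) := by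
  obtain ⟨C, hC, h⟩ := lintegral_le_volD (isDensity_det_metric ha)
    (fun e x hx => det_metric_pos ha e x hx) he hK hKe
  refine ⟨C, hC, fun g hg => (h g hg).trans ?_⟩
  exact mul_le_mul_right (setLIntegral_le_lintegral _ _) _

/-- integrals over `X` of a function living in a compact piece of a chart -/
theorem volX_le_lintegral (ha : IsHermitian a) {e : Chart n X} (he : e ∈ atlas (Cm n) X)
    {K : Set (Cm n)} (hK : IsCompact K) (hKe : K ⊆ e.target) :
    ∃ C : ℝ≥0, 0 < C ∧ ∀ h : X → ℝ≥0∞, Measurable h →
      ∫⁻ x in e.source ∩ e ⁻¹' K, h x ∂(volX a) ≤ C * ∫⁻ z in K, h (e.symm z) := by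
  obtain ⟨C, hC, h⟩ := volD_le_lintegral (isDensity_det_metric ha)
    (fun e x hx => det_metric_pos ha e x hx) he hK hKe
  have hm : MeasurableSet (e.source ∩ e ⁻¹' K) := by
    have : e.source ∩ e ⁻¹' K = e.symm '' K := by
      have h3 := e.symm.image_eq_target_inter_inv_preimage (s := K) hKe
      rw [h3]; rfl
    rw [this]
    exact (hK.image_of_continuousOn (e.continuousOn_symm.mono hKe)).measurableSet
  refine ⟨C, hC, fun g hg => ?_⟩
  have h1 := h ((e.source ∩ e ⁻¹' K).indicator g) (hg.indicator hm) (fun x _ hx =>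
    indicator_of_notMem (fun h => hx h.2) _)
  have h2 : ∫⁻ x in e.source ∩ e ⁻¹' K, g x ∂(volX a) =
      ∫⁻ x in e.source, (e.source ∩ e ⁻¹' K).indicator g x ∂(volX a) := by
    rw [lintegral_indicator hm, Measure.restrict_restrict hm,
      inter_eq_left.2 (inter_subset_left (s := e.source) (t := e ⁻¹' K))]
  rw [h2]
  refine h1.trans (le_of_eq ?_)
  congr 1
  refine setLIntegral_congr_fun hK.measurableSet fun z hz => ?_
  refine indicator_of_mem ?_ _
  refine ⟨e.map_target (hKe hz), ?_⟩
  rw [mem_preimage, e.right_inv (hKe hz)]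
  exact hz

/-- Lebesgue measure of a compact piece of a chart -/
theorem vol_le_volX (ha : IsHermitian a) {e : Chart n X} (he : e ∈ atlas (Cm n) X)
    {K : Set (Cm n)} (hK : IsCompact K) (hKe : K ⊆ e.target) :
    ∃ C : ℝ≥0, 0 < C ∧ ∀ A : Set X, MeasurableSet A →
      volume (K ∩ e.symm ⁻¹' A) ≤ C * volX a A := by
  obtain ⟨C, hC, h⟩ := lintegral_le_volX ha he hK hKe
  refine ⟨C, hC, fun A hA => ?_⟩
  have h1 := h (A.indicator 1) (measurable_one.indicator hA)
  rw [lintegral_indicator_one hA] at h1
  refine le_trans (le_of_eq ?_) h1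
  have hm : MeasurableSet (K ∩ e.symm ⁻¹' A) := by
    have := hK.measurableSet.inter (measurableSet_preim e hA)
    rwa [← inter_assoc, inter_eq_left.2 hKe] at this
  rw [← lintegral_indicator_one hm, ← lintegral_indicator hK.measurableSet]
  congr 1
  ext z
  by_cases hz : z ∈ K
  · by_cases hz' : e.symm z ∈ A
    · rw [indicator_of_mem hz, indicator_of_mem hz',
        indicator_of_mem (show z ∈ K ∩ e.symm ⁻¹' A from ⟨hz, hz'⟩)]
      rfl
    · have h5 : z ∉ K ∩ e.symm ⁻¹' A := fun h6 => hz' h6.2
      rw [indicator_of_mem hz, indicator_of_notMem hz', indicator_of_notMem h5]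
  · have h5 : z ∉ K ∩ e.symm ⁻¹' A := fun h6 => hz h6.1
    rw [indicator_of_notMem hz, indicator_of_notMem h5]

/-- the measure of a piece of `X` lying over a subset of a compact piece of a chart -/
theorem volX_le_vol (ha : IsHermitian a) {e : Chart n X} (he : e ∈ atlas (Cm n) X)
    {K : Set (Cm n)} (hK : IsCompact K) (hKe : K ⊆ e.target) :
    ∃ C : ℝ≥0, 0 < C ∧ ∀ E : Set (Cm n), MeasurableSet E → E ⊆ K →
      volX a (e.source ∩ e ⁻¹' E) ≤ C * volume E := by
  obtain ⟨C, hC, h⟩ := volX_le_lintegral ha he hK hKe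
  have hem : ∀ E : Set (Cm n), MeasurableSet E → MeasurableSet (e.source ∩ e ⁻¹' E) := by
    intro E hE
    have h1 : Measurable (e.source.domRestrict e) :=
      (continuousOn_iff_continuous_domRestrict.1 e.continuousOn).measurable
    have h2 := h1 hE
    have h3 := (MeasurableEmbedding.subtype_coe
      e.open_source.measurableSet).measurableSet_image' h2
    convert h3 using 1
    ext z
    simp [Set.domRestrict, and_comm]
  refine ⟨C, hC, fun E hE hEK => ?_⟩
  have h1 := h ((e.source ∩ e ⁻¹' E).indicator 1) (measurable_one.indicator (hem E hE))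
  have h2 : ∫⁻ x in e.source ∩ e ⁻¹' K, (e.source ∩ e ⁻¹' E).indicator 1 x ∂(volX a) =
      volX a (e.source ∩ e ⁻¹' E) := by
    rw [lintegral_indicator_one (hem E hE), Measure.restrict_apply (hem E hE),
      inter_eq_left.2 (inter_subset_inter_right _ (preimage_mono hEK))]
  rw [h2] at h1
  refine h1.trans (le_of_eq ?_)
  congr 1
  rw [← lintegral_indicator_one hE, ← lintegral_indicator hK.measurableSet]
  congr 1
  ext z
  by_cases hz : z ∈ K
  · have hs : e.symm z ∈ e.source := e.map_target (hKe hz)
    by_cases hz' : z ∈ E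
    · rw [indicator_of_mem hz, indicator_of_mem hz', indicator_of_mem]
      · rfl
      · refine ⟨hs, ?_⟩
        rw [mem_preimage, e.right_inv (hKe hz)]
        exact hz'
    · rw [indicator_of_mem hz, indicator_of_notMem hz', indicator_of_notMem]
      rintro ⟨-, h6⟩
      rw [mem_preimage, e.right_inv (hKe hz)] at h6
      exact hz' h6
  · rw [indicator_of_notMem hz, indicator_of_notMem fun h6 => hz (hEK h6)]

/-- the volumes of two metrics are comparable -/
theorem volX_le_smul (ha : IsHermitian a) {b : Chart n X → Cm n → Matrix (Fin n) (Fin n) ℂ}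
    (hb : IsHermitian b) : ∃ c : ℝ≥0, 0 < c ∧ volX a ≤ (c : ℝ≥0∞) • volX b := by
  obtain ⟨c, hc, h⟩ := exists_density_le (isDensity_det_metric ha) (isDensity_det_metric hb)
    (fun e x hx => det_metric_pos hb e x hx)
  exact ⟨c, hc, volD_le_smul h⟩

end metric

end

end Vale.Agent.P272.FAM
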