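import Vale.Agent.P272.FAM.Tube
import Vale.Agent.P272.FAM.F1b
import Vale.Agent.P272.FAM.VolChart
import Vale.Agent.P272.FAM.F4
import Vale.Agent.P272.FAM.F5

/-!
# P272 / FAM: a tube gives a local family (F1); the final output (FC)
-/

open scoped Manifold ContDiff ComplexOrder Topology ENNReal NNReal
open MeasureTheory Metric Set Filter

noncomputable section

namespace Vale.Agent.P272.FAM

open Vale.Agent.P272.K
open Vale.Agent.P272.K.AMP (volX)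

variable {n : ℕ} {X : Type*} [TopologicalSpace X] [ChartedSpace (Cm n) X]
  [IsManifold 𝓘(ℂ, Cm n) ω X] [T2Space X] [CompactSpace X] [MeasurableSpace X] [BorelSpace X]
  {a : Chart n X → Cm n → Matrix (Fin n) (Fin n) ℂ}

theorem vc1 (ha : IsHermitian a) : VC1 a := by
  intro e he K hK hKe
  obtain ⟨C, _, hC⟩ := vol_le_volX ha he hK hKe
  refine ⟨C, fun A hA => le_trans (measure_mono ?_) (hC A hA)⟩
  rintro _ ⟨x, ⟨hxA, y, hy, rfl⟩, rfl⟩
  rw [e.right_inv (hKe hy)]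
  exact ⟨hy, hxA⟩

theorem vc2 (ha : IsHermitian a) : VC2 a := by
  intro e he K hK hKe
  obtain ⟨C, _, hC⟩ := volX_le_vol ha he hK hKe
  refine ⟨C, fun E hE hEK => le_trans (measure_mono ?_) (hC E hE hEK)⟩
  rintro _ ⟨y, hy, rfl⟩
  refine ⟨e.map_target (hKe (hEK hy)), ?_⟩
  show e (e.symm y) ∈ E
  rw [e.right_inv (hKe (hEK hy))]
  exact hy

/-- **F1** -/
theorem f1 : F1 n X := by
  intro f δ T hT ρ hρ hρ1
  obtain ⟨R, hR1, hR2⟩ : ∃ R : ℝ, 1 < R ∧ ρ * R < 1 := by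
    refine ⟨(1 + ρ⁻¹) / 2, ?_, ?_⟩
    · have := (one_lt_inv₀ hρ).2 hρ1
      linarith
    · have h1 : ρ * ρ⁻¹ = 1 := mul_inv_cancel₀ hρ.ne'
      nlinarith
  have he0 : At (chartAt (Cm n) (f 0)) (f 0) := BR.at_chartAt _
  obtain ⟨e, he⟩ : ∃ e : Chart n X, At e (f 0) := ⟨_, he0⟩
  obtain ⟨d, G, hG, hGf⟩ := cfam_of_tube hT hρ hR1 hR2 he
  have hL := locFam_of_cfam hG (fun a ha => ⟨vc1 ha, vc2 ha⟩) (d' := d / 2)
    (by have := hG.pos; linarith)
  exact ⟨e.source ∩ {x | e x ∈ ball (e (f 0)) (d / 2)}, fun x z => G (e x) z,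
    ⟨he.2, mem_ball_self (half_pos hG.pos)⟩, hL, fun z hz => hGf z (ball_subset_ball hR1.le hz)⟩

/-- the Borel family, output of the block -/
theorem fc_of (h9 : ∀ f : ℂ → X, ContinuousOn f (closedBall 0 1) → HY.HolD n f →
      ∃ (δ : ℝ) (F : ℂ → Cm n → X), HY.HolTube f δ F) : FC n X := by
  intro w g hw hg c r hc hr hr1 S hS hmax ε hε
  obtain ⟨N, U, F, hL, hcov, hS'⟩ := f4_of' f1 h9 w g hw hg c r hc hr hr1 S hS hmax ε hε
  obtain ⟨κ, hκ, hκU, hTE, C, hC⟩ := f5 w hw N U F hL hcov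
  exact ⟨fun x => F (κ x) x, fun x => (hL _).zero x (hκU x), fun x => (hL _).holo x (hκU x),
    fun x => hS' _ x (hκU x), hTE, C, hC⟩

end Vale.Agent.P272.FAM
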