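import Vale.Agent.P272.FAM.Defs
import Vale.Agent.P272.BR.Pull

/-!
# P272 / FAM / F2: shrinking a disc changes the functional by little
-/

open scoped Manifold ContDiff ComplexOrder Topology ENNReal NNReal
open MeasureTheory Metric Set Filter

set_option linter.all false

noncomputable section

namespace Vale.Agent.P272.FAM

open Vale.Agent.P272.K

section scale
variable {n : ℕ} {X : Type*} [TopologicalSpace X] [ChartedSpace (Cm n) X]
  {a : Chart n X → Cm n → Matrix (Fin n) (Fin n) ℂ} {f : ℂ → X}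

lemma TE_eq_TL (a : Chart n X → Cm n → Matrix (Fin n) (Fin n) ℂ) (r : ℝ) (f : ℂ → X) :
    HY.TE a r f = BR.TL (BR.spd a f) r := rfl

lemma TE_congr' {f g : ℂ → X} {r : ℝ} (h : ∀ z ∈ ball (0 : ℂ) r, f z = g z) :
    HY.TE a r f = HY.TE a r g := by
  rw [TE_eq_TL, TE_eq_TL]
  refine BR.TL_congr fun z hz => ?_
  refine BR.spd_congr ?_
  filter_upwards [isOpen_ball.mem_nhds hz] with w hw using h w hw

lemma Phi_congr {w g : Chart n X → Cm n → Matrix (Fin n) (Fin n) ℂ} {c r : ℝ} {f h : ℂ → X}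
    (hr1 : r ≤ 1) (hfh : ∀ z ∈ ball (0 : ℂ) 1, f z = h z) :
    Phi w g c r f = Phi w g c r h := by
  unfold Phi
  rw [TE_congr' (a := w) (r := r) (fun z hz => hfh z (ball_subset_ball hr1 hz)),
    TE_congr' (a := g) (r := 1) hfh]
  have h0 : BR.spd w f 0 = BR.spd w h 0 := by
    refine BR.spd_congr ?_
    filter_upwards [isOpen_ball.mem_nhds (mem_ball_self one_pos)] with z hz using hfh z hz
  rw [h0]

lemma Gr_scale {r ρ : ℝ} (hρ : 0 < ρ) (z : ℂ) : GJ.Gr (ρ * r) (ρ * z) = GJ.Gr r z := by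
  unfold GJ.Gr
  rw [norm_mul, Complex.norm_real, Real.norm_eq_abs, abs_of_pos hρ, mul_div_mul_left _ _ hρ.ne']

lemma scale_image {r ρ : ℝ} (hρ : 0 < ρ) :
    (fun z : ℂ => (ρ : ℂ) * z) '' ball (0 : ℂ) r = ball (0 : ℂ) (ρ * r) := by
  have hρ' : (ρ : ℂ) ≠ 0 := by exact_mod_cast hρ.ne'
  ext w
  constructor
  · rintro ⟨z, hz, rfl⟩
    have h1 : ‖z‖ < r := by simpa using hz
    have : ‖(ρ : ℂ) * z‖ < ρ * r := by
      rw [norm_mul, Complex.norm_real, Real.norm_eq_abs, abs_of_pos hρ]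
      exact mul_lt_mul_of_pos_left h1 hρ
    simpa using this
  · intro hw
    have h1 : ‖w‖ < ρ * r := by simpa using hw
    refine ⟨w / ρ, ?_, mul_div_cancel₀ _ hρ'⟩
    have : ‖w / (ρ : ℂ)‖ < r := by
      rw [norm_div, Complex.norm_real, Real.norm_eq_abs, abs_of_pos hρ, div_lt_iff₀ hρ, mul_comm]
      exact h1
    simpa using this

lemma hasDeriv_scale (ρ : ℝ) (z : ℂ) : HasDerivAt (fun z : ℂ => (ρ : ℂ) * z) (ρ : ℂ) z := by
  simpa using (hasDerivAt_id z).const_mul (ρ : ℂ)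

lemma mem_scale {ρ : ℝ} (hρ : 0 < ρ) (hρ1 : ρ ≤ 1) {z : ℂ} (hz : z ∈ ball (0 : ℂ) 1) :
    (ρ : ℂ) * z ∈ ball (0 : ℂ) 1 := by
  have h1 : ‖z‖ < 1 := by simpa using hz
  have : ‖(ρ : ℂ) * z‖ < 1 := by
    rw [norm_mul, Complex.norm_real, Real.norm_eq_abs, abs_of_pos hρ]
    nlinarith [norm_nonneg z]
  simpa using this

lemma spd_scale {ρ : ℝ} (hρ : 0 < ρ) (hρ1 : ρ ≤ 1) (hf : HY.HolD n f) {z : ℂ}
    (hz : z ∈ ball (0 : ℂ) 1) :
    BR.spd a (fun z => f (ρ * z)) z = ρ ^ 2 * BR.spd a f (ρ * z) := by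
  have h1 := BR.spd_comp (h := a) (f := f) (φ := fun z : ℂ => (ρ : ℂ) * z) (z := z)
    (hf _ (mem_scale hρ hρ1 hz)) (hasDeriv_scale ρ z).differentiableAt
  rw [h1, (hasDeriv_scale ρ z).deriv, Complex.norm_real, Real.norm_eq_abs, sq_abs]

lemma HolD.scale {ρ : ℝ} (hρ : 0 < ρ) (hρ1 : ρ ≤ 1) (hf : HY.HolD n f) :
    HY.HolD n (fun z => f (ρ * z)) :=
  BR.HolOn.comp hf fun z hz => ⟨(hasDeriv_scale ρ z).differentiableAt, mem_scale hρ hρ1 hz⟩

/-- `T^{(r)}(f(ρ ·)) = T^{(ρ r)}(f)` -/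
theorem TE_scale {ρ r : ℝ} (hρ : 0 < ρ) (hρ1 : ρ ≤ 1) (hr1 : r ≤ 1) (hf : HY.HolD n f) :
    HY.TE a r (fun z => f (ρ * z)) = HY.TE a (ρ * r) f := by
  unfold HY.TE
  rw [← scale_image hρ, BR.lintegral_image_holo isOpen_ball
    (fun z _ => (hasDeriv_scale ρ z).differentiableAt.differentiableWithinAt)
    (fun z _ z' _ h => by
      have hρ' : (ρ : ℂ) ≠ 0 := by exact_mod_cast hρ.ne'
      exact mul_left_cancel₀ hρ' h)]
  refine setLIntegral_congr_fun measurableSet_ball fun z hz => ?_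
  have hz1 : z ∈ ball (0 : ℂ) 1 := ball_subset_ball hr1 hz
  rw [(hasDeriv_scale ρ z).deriv, Complex.norm_real, Real.norm_eq_abs, sq_abs,
    ← ENNReal.ofReal_mul (by positivity), Gr_scale hρ, spd_scale hρ hρ1 hf hz1]
  congr 1
  ring

end scale

section
variable (n : ℕ) (X : Type*) [TopologicalSpace X] [ChartedSpace (Cm n) X]
  [IsManifold 𝓘(ℂ, Cm n) ω X] [T2Space X] [CompactSpace X] [MeasurableSpace X] [BorelSpace X]

lemma spd_aemeasurable {n : ℕ} {X : Type*} [TopologicalSpace X] [ChartedSpace (Cm n) X]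
    [IsManifold 𝓘(ℂ, Cm n) ω X] {a : Chart n X → Cm n → Matrix (Fin n) (Fin n) ℂ} {f : ℂ → X}
    (ha : IsHermitian a) (hf : HY.HolD n f) {r : ℝ} (hr : r ≤ 1) :
    AEMeasurable (BR.spd a f) (volume.restrict (ball (0 : ℂ) r)) :=
  ((BR.HolOn.continuousOn_spd isOpen_ball ha hf).mono (ball_subset_ball hr)).aemeasurable
    measurableSet_ball

/-- the radius `1 - 1/(k+2)` -/
def rk (k : ℕ) : ℝ := 1 - 1 / ((k : ℝ) + 2)

lemma rk_pos (k : ℕ) : 0 < rk k := by
  unfold rk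
  have h1 : (1 : ℝ) / ((k : ℝ) + 2) ≤ 1 / 2 :=
    one_div_le_one_div_of_le (by norm_num) (by have := k.cast_nonneg (α := ℝ); linarith)
  linarith

lemma rk_lt (k : ℕ) : rk k < 1 := by
  unfold rk
  have : 0 < (1 : ℝ) / ((k : ℝ) + 2) := by positivity
  linarith

lemma rk_mono : Monotone rk := by
  intro k l h
  unfold rk
  have h1 : (1 : ℝ) / ((l : ℝ) + 2) ≤ 1 / ((k : ℝ) + 2) :=
    one_div_le_one_div_of_le (by positivity) (by
      have h2 : (k : ℝ) ≤ l := Nat.cast_le.2 h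
      linarith)
  linarith

lemma rk_tendsto : Tendsto rk atTop (𝓝 1) := by
  have h1 : Tendsto (fun k : ℕ => (1 : ℝ) / ((k : ℝ) + 2)) atTop (𝓝 0) := by
    have h2 : Tendsto (fun k : ℕ => (k : ℝ) + 2) atTop atTop :=
      tendsto_atTop_add_const_right _ _ tendsto_natCast_atTop_atTop
    simpa using h2.inv_tendsto_atTop.congr (fun k => (one_div _).symm)
  have h3 := h1.const_sub 1
  rw [sub_zero] at h3
  exact h3

theorem f2 : F2 n X := by
  intro w g hw hg c r hc hr hr1 f hf hT ε hε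
  -- boundedness of the energy on the smaller disc
  have hTr : HY.TE w r f < ⊤ := by
    have hcont : ContinuousOn (BR.spd w f) (closedBall (0 : ℂ) r) :=
      (BR.HolOn.continuousOn_spd isOpen_ball hw hf).mono (closedBall_subset_ball hr1)
    obtain ⟨C, hC⟩ := (isCompact_closedBall (0 : ℂ) r).exists_bound_of_continuousOn hcont
    refine BR.TL_lt_top (C := C) fun z hz => ?_
    exact (le_abs_self _).trans (hC z (ball_subset_closedBall hz))
  have hmeas : AEMeasurable (BR.spd w f) (volume.restrict (ball (0 : ℂ) r)) :=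
    spd_aemeasurable hw hf hr1.le
  have hlim : Tendsto (fun k => HY.TE w (rk k * r) f) atTop (𝓝 (HY.TE w r f)) := by
    have := BR.TL_tendsto_radius (s := BR.spd w f) (r' := r) hmeas hr
      (fun z _ => BR.spd_nonneg hw f z) (ρ := fun k => rk k * r)
      (fun k l h => mul_le_mul_of_nonneg_right (rk_mono h) hr.le)
      (fun k => mul_pos (rk_pos k) hr)
      (fun k => by
        have := mul_lt_mul_of_pos_right (rk_lt k) hr
        simpa using this)
      (by simpa using rk_tendsto.mul_const r)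
    exact this
  have hlim' : Tendsto (fun k => c * (HY.TE w (rk k * r) f).toReal) atTop
      (𝓝 (c * (HY.TE w r f).toReal)) :=
    ((ENNReal.tendsto_toReal hTr.ne).comp hlim).const_mul c
  have hev1 : ∀ᶠ k in atTop, c * (HY.TE w r f).toReal - ε / 2 < c * (HY.TE w (rk k * r) f).toReal :=
    hlim'.eventually (lt_mem_nhds (by linarith))
  have hlim2 : Tendsto (fun k => (rk k) ^ 2 * BR.spd w f 0) atTop (𝓝 (BR.spd w f 0)) := by
    simpa using (rk_tendsto.pow 2).mul_const (BR.spd w f 0)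
  have hev2 : ∀ᶠ k in atTop, BR.spd w f 0 - ε / 2 < (rk k) ^ 2 * BR.spd w f 0 :=
    hlim2.eventually (lt_mem_nhds (by linarith))
  obtain ⟨k, hk1, hk2⟩ := (hev1.and hev2).exists
  refine ⟨rk k, rk_pos k, rk_lt k, fun ρ hρk hρ1 => ?_⟩
  have hρ : 0 < ρ := (rk_pos k).trans_le hρk
  have hg1 : HY.TE g 1 (fun z => f (ρ * z)) = HY.TE g ρ f := by
    rw [TE_scale hρ hρ1.le le_rfl hf, mul_one]
  have hg2 : HY.TE g ρ f ≤ HY.TE g 1 f :=
    BR.TL_mono_radius hρ hρ1.le fun z _ => BR.spd_nonneg hg f z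
  have hne : HY.TE g 1 (fun z => f (ρ * z)) ≠ ⊤ := by
    rw [hg1]; exact ne_top_of_le_ne_top hT hg2
  refine ⟨?_, hne⟩
  unfold Phi
  rw [hg1, TE_scale hρ hρ1.le hr1.le hf,
    spd_scale (a := w) hρ hρ1.le hf (mem_ball_self one_pos), mul_zero]
  have h3 : (HY.TE g ρ f).toReal ≤ (HY.TE g 1 f).toReal := ENNReal.toReal_mono hT hg2
  have h4 : c * (HY.TE w (rk k * r) f).toReal ≤ c * (HY.TE w (ρ * r) f).toReal := by
    refine mul_le_mul_of_nonneg_left (ENNReal.toReal_mono ?_ ?_) hc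
    · refine ne_top_of_le_ne_top hTr.ne ?_
      refine BR.TL_mono_radius (mul_pos hρ hr) ?_ fun z _ => BR.spd_nonneg hw f z
      have := mul_le_mul_of_nonneg_right hρ1.le hr.le
      simpa using this
    · exact BR.TL_mono_radius (mul_pos (rk_pos k) hr)
        (mul_le_mul_of_nonneg_right hρk hr.le) fun z _ => BR.spd_nonneg hw f z
  have h5 : (rk k) ^ 2 * BR.spd w f 0 ≤ ρ ^ 2 * BR.spd w f 0 := by
    refine mul_le_mul_of_nonneg_right ?_ (BR.spd_nonneg hw f 0)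
    exact pow_le_pow_left₀ (rk_pos k).le hρk 2
  linarith

end

end Vale.Agent.P272.FAM
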