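import Vale.Agent.P272.FAM.F2

/-!
# P272 / FAM / F3: continuity of the energies and of the functional along a local family
-/

open scoped Manifold ContDiff ComplexOrder Topology ENNReal NNReal
open MeasureTheory Metric Set Filter

set_option linter.all false

noncomputable section

namespace Vale.Agent.P272.FAM

open Vale.Agent.P272.K

section
variable (n : ℕ) (X : Type*) [TopologicalSpace X] [ChartedSpace (Cm n) X]
  [IsManifold 𝓘(ℂ, Cm n) ω X] [T2Space X] [CompactSpace X] [MeasurableSpace X] [BorelSpace X]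

/-- the energy of a disc of bounded speed is bounded -/
lemma TE_le_const {n : ℕ} {X : Type*} [TopologicalSpace X] [ChartedSpace (Cm n) X]
    {a : Chart n X → Cm n → Matrix (Fin n) (Fin n) ℂ} {f : ℂ → X} {C r : ℝ} (hr : 0 < r)
    (hr1 : r ≤ 1) (h : ∀ z ∈ ball (0 : ℂ) 1, BR.spd a f z ≤ C) :
    HY.TE a r f ≤ ENNReal.ofReal (BR.TL (fun _ => C) r).toReal := by
  have hfin : BR.TL (fun _ => C) r < ⊤ := BR.TL_lt_top (C := C) fun z _ => le_rfl
  rw [ENNReal.ofReal_toReal hfin.ne]
  exact BR.TL_le_of_le fun z hz => h z (ball_subset_ball hr1 hz)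

theorem f3 : F3 n X := by
  intro U F hF w g hw hg
  haveI : SecondCountableTopology X := ChartedSpace.secondCountable_of_sigmaCompact (Cm n) X
  have key : ∀ a : Chart n X → Cm n → Matrix (Fin n) (Fin n) ℂ, IsHermitian a →
      ∀ r : ℝ, 0 < r → r ≤ 1 → (∃ C : ℝ, ∀ x ∈ U, HY.TE a r (F x) ≤ ENNReal.ofReal C) ∧
        ContinuousOn (fun x => HY.TE a r (F x)) U := by
    intro a ha r hr hr1
    obtain ⟨C, hC⟩ := hF.spdb a ha
    refine ⟨⟨(BR.TL (fun _ => C) r).toReal, fun x hx => TE_le_const hr hr1 (hC x hx)⟩, ?_⟩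
    intro x hx
    show Tendsto (fun y => ∫⁻ z in ball (0 : ℂ) r, ENNReal.ofReal (GJ.Gr r z * BR.spd a (F y) z))
      (𝓝[U] x) (𝓝 (∫⁻ z in ball (0 : ℂ) r, ENNReal.ofReal (GJ.Gr r z * BR.spd a (F x) z)))
    have hsub : ball (0 : ℂ) r ⊆ ball (0 : ℂ) 1 := ball_subset_ball hr1
    refine tendsto_lintegral_filter_of_dominated_convergence'
      (fun z => ENNReal.ofReal (GJ.Gr r z * C)) ?_ ?_ ?_ ?_
    · filter_upwards [self_mem_nhdsWithin] with y hy
      refine BR.aemeasurable_integrand ?_ r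
      exact spd_aemeasurable ha (hF.holo y hy) hr1
    · filter_upwards [self_mem_nhdsWithin] with y hy
      refine (ae_restrict_iff' measurableSet_ball).2 (Eventually.of_forall fun z hz => ?_)
      exact ENNReal.ofReal_le_ofReal (mul_le_mul_of_nonneg_left (hC y hy z (hsub hz))
        (GJ.Gr_nonneg hz))
    · exact ((BR.integrableOn_Gr' r).mul_const C).lintegral_lt_top.ne
    · refine (ae_restrict_iff' measurableSet_ball).2 (Eventually.of_forall fun z hz => ?_)
      have h1 : ContinuousOn (fun y => BR.spd a (F y) z) U :=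
        (hF.spdc a ha).comp (f := fun y : X => (y, z)) (by fun_prop) fun y hy => ⟨hy, hsub hz⟩
      exact (ENNReal.continuous_ofReal.tendsto _).comp ((h1 x hx).const_mul (GJ.Gr r z))
  refine ⟨fun r hr hr1 => key w hw r hr hr1, fun c r hr hr1 => ?_⟩
  have h1 : ContinuousOn (fun x => BR.spd w (F x) 0) U := by
    have := hF.spdc w hw
    exact this.comp (f := fun x : X => (x, (0 : ℂ))) (by fun_prop)
      fun x hx => ⟨hx, mem_ball_self one_pos⟩
  have h2 : ∀ a : Chart n X → Cm n → Matrix (Fin n) (Fin n) ℂ, IsHermitian a → ∀ r : ℝ, 0 < r →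
      r ≤ 1 → ContinuousOn (fun x => (HY.TE a r (F x)).toReal) U := by
    intro a ha r hr hr1
    obtain ⟨⟨C, hC⟩, hc⟩ := key a ha r hr hr1
    intro x hx
    exact (ENNReal.tendsto_toReal (ne_top_of_le_ne_top ENNReal.ofReal_ne_top (hC x hx))).comp
      (hc x hx)
  exact (h1.add ((h2 w hw r hr hr1).const_smul c)).sub (h2 g hg 1 one_pos le_rfl)

end

end Vale.Agent.P272.FAM
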