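import Vale.Agent.P272.FAM.F5
import Mathlib.MeasureTheory.Integral.CircleAverage

/-!
# P272 / FAM / F5b: the law of the boundary values of a Borel family of discs
-/

open scoped Manifold ContDiff ComplexOrder Topology ENNReal NNReal
open MeasureTheory Metric Set Filter

set_option linter.unusedSectionVars false

noncomputable section

namespace Vale.Agent.P272.FAM

open Vale.Agent.P272.K
open Vale.Agent.P272.K.AMP (volX trX)

namespace F5

section
variable {n : ℕ} {X : Type*} [TopologicalSpace X] [ChartedSpace (Cm n) X]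
  [IsManifold 𝓘(ℂ, Cm n) ω X] [T2Space X] [CompactSpace X] [MeasurableSpace X] [BorelSpace X]
  {N : ℕ} {U : Fin N → Set X} {F : Fin N → X → ℂ → X}

open scoped Classical in
/-- the boundary values of the `i`-th family on the circle of radius `s` -/
def bdy (s : ℝ) (U : Set X) (F : X → ℂ → X) (p : X × ℝ) : X :=
  (U ×ˢ (univ : Set ℝ)).piecewise (fun p : X × ℝ => F p.1 (circleMap 0 s p.2)) Prod.fst p

lemma bdy_eq {U : Set X} {F : X → ℂ → X} {x : X} (hx : x ∈ U) (s θ : ℝ) :
    bdy s U F (x, θ) = F x (circleMap 0 s θ) := by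
  classical
  unfold bdy
  rw [piecewise_eq_of_mem _ _ _ (mk_mem_prod hx (mem_univ θ))]

lemma measurable_bdy {U : Set X} {F : X → ℂ → X} (hL : LocFam n U F) {s : ℝ} (h0 : 0 ≤ s)
    (h1 : s ≤ 1) : Measurable (bdy s U F) := by
  classical
  obtain ⟨R, hR, hc, -⟩ := hL.ext
  have h2 : ContinuousOn (fun p : X × ℝ => F p.1 (circleMap 0 s p.2)) (U ×ˢ (univ : Set ℝ)) := by
    refine ContinuousOn.comp (g := fun p : X × ℂ => F p.1 p.2)
      (f := fun p : X × ℝ => (p.1, circleMap 0 s p.2)) hc ?_ ?_
    · exact (continuous_fst.prodMk ((continuous_circleMap 0 s).comp continuous_snd)).continuousOn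
    · intro p hp
      refine ⟨hp.1, ?_⟩
      rw [mem_ball, dist_zero_right, norm_circleMap_zero, abs_of_nonneg h0]
      linarith
  exact h2.measurable_piecewise continuous_fst.continuousOn
    (hL.isOpen.measurableSet.prod MeasurableSet.univ)

/-- the uniform law on the circle, as a measure on the angles -/
def cm : Measure ℝ := (ENNReal.ofReal (2 * Real.pi)⁻¹) • volume.restrict (Ioc 0 (2 * Real.pi))

instance : IsProbabilityMeasure cm := by
  constructor
  have hpi := Real.pi_pos
  rw [cm, Measure.smul_apply, Measure.restrict_apply MeasurableSet.univ, univ_inter,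
    Real.volume_Ioc, smul_eq_mul, ← ENNReal.ofReal_mul (by positivity), sub_zero,
    inv_mul_cancel₀ (by positivity), ENNReal.ofReal_one]

lemma integral_cm (f : ℂ → ℝ) (s : ℝ) :
    ∫ θ, f (circleMap 0 s θ) ∂cm = Real.circleAverage f 0 s := by
  have hpi := Real.pi_pos
  rw [cm, integral_smul_measure, Real.circleAverage_def,
    intervalIntegral.integral_of_le (by positivity), ENNReal.toReal_ofReal (by positivity)]

/-- **law of the boundary values** on the circle of radius `s ≤ 1` -/
theorem boundary_law (hL : ∀ i, LocFam n (U i) (F i)) {κ : X → Fin N} (hκ : Measurable κ)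
    (hκU : ∀ x, x ∈ U (κ x)) {s : ℝ} (h0 : 0 ≤ s) (h1 : s ≤ 1) (μ : Measure X)
    [IsProbabilityMeasure μ] :
    ∃ σ : Measure X, IsProbabilityMeasure σ ∧ ∀ h : X → ℝ, Continuous h →
      Measurable (fun x => Real.circleAverage (fun z => h (F (κ x) x z)) 0 s) ∧
      Integrable (fun x => Real.circleAverage (fun z => h (F (κ x) x z)) 0 s) μ ∧
      ∫ x, h x ∂σ = ∫ x, Real.circleAverage (fun z => h (F (κ x) x z)) 0 s ∂μ := by
  classical
  set g : X × ℝ → X := fun p => bdy s (U (κ p.1)) (F (κ p.1)) p with hg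
  have hgm : Measurable g :=
    measurable_glue (κ := fun p : X × ℝ => κ p.1) (f := fun i p => bdy s (U i) (F i) p)
      (hκ.comp measurable_fst) fun i => measurable_bdy (hL i) h0 h1
  have hin : ∀ (h : X → ℝ) (x : X), ∫ θ, h (g (x, θ)) ∂cm =
      Real.circleAverage (fun z => h (F (κ x) x z)) 0 s := by
    intro h x
    rw [← integral_cm]
    refine integral_congr_ae (Eventually.of_forall fun θ => ?_)
    dsimp only
    rw [hg]
    dsimp only
    rw [bdy_eq (hκU x)]
  refine ⟨(μ.prod cm).map g, Measure.isProbabilityMeasure_map hgm.aemeasurable, fun h hh => ?_⟩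
  obtain ⟨C, hC⟩ := (isCompact_range hh).isBounded.exists_norm_le
  have hhb : ∀ x, ‖h x‖ ≤ C := fun x => hC _ ⟨x, rfl⟩
  have hm : Measurable fun p : X × ℝ => h (g p) := hh.measurable.comp hgm
  have hint : Integrable (fun p : X × ℝ => h (g p)) (μ.prod cm) :=
    Integrable.of_bound hm.aestronglyMeasurable C (Eventually.of_forall fun p => hhb _)
  have h2 : (fun x => ∫ θ, h (g (x, θ)) ∂cm) = fun x =>
      Real.circleAverage (fun z => h (F (κ x) x z)) 0 s := funext fun x => hin h x
  refine ⟨?_, ?_, ?_⟩
  · rw [← h2]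
    exact (hm.stronglyMeasurable.integral_prod_right' (ν := cm)).measurable
  · rw [← h2]
    exact hint.integral_prod_left
  · rw [integral_map hgm.aemeasurable hh.aestronglyMeasurable, integral_prod _ hint, h2]

end

end F5

end Vale.Agent.P272.FAM
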