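import Vale.Agent.P272.FAM.Defs
import Vale.Agent.P268.Hol
import Mathlib.Analysis.Calculus.FDeriv.Analytic

/-!
# P272 / FAM: maps from complex domains to `X` which are holomorphic in several variables
-/

open scoped Manifold ContDiff ComplexOrder Topology ENNReal NNReal
open MeasureTheory Metric Set Filter

noncomputable section

namespace Vale.Agent.P272.FAM

open Vale.Agent.P272.K

variable {n : ℕ} {X : Type*} [TopologicalSpace X] [ChartedSpace (Cm n) X]
  {P : Type*} [NormedAddCommGroup P] [NormedSpace ℂ P]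

/-- `H : P → X` is holomorphic near every point of `V` -/
structure HolV (H : P → X) (V : Set P) : Prop where
  isOpen : IsOpen V
  cont : ContinuousOn H V
  diff : ∀ p ∈ V, ∀ e : Chart n X, At e (H p) → DifferentiableAt ℂ (fun q => e (H q)) p

variable {H : P → X} {V : Set P} {p : P} {e e' : Chart n X}

lemma HolV.eventually_at (h : HolV (n := n) H V) (hp : p ∈ V) (he : At e (H p)) :
    ∀ᶠ q in 𝓝 p, q ∈ V ∧ At e (H q) := by
  filter_upwards [h.isOpen.mem_nhds hp,
    ((h.cont.continuousAt (h.isOpen.mem_nhds hp)).eventually (e.open_source.mem_nhds he.2))]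
    with q hq hq'
  exact ⟨hq, he.1, hq'⟩

theorem HolV.analyticAt [FiniteDimensional ℂ P] (h : HolV (n := n) H V) (hp : p ∈ V)
    (he : At e (H p)) : AnalyticAt ℂ (fun q => e (H q)) p := by
  have ho : IsOpen (V ∩ H ⁻¹' e.source) := h.cont.isOpen_inter_preimage h.isOpen e.open_source
  refine P268.analyticAt_of_differentiableOn ho ?_ ⟨hp, he.2⟩
  intro q hq
  exact (h.diff q hq.1 e ⟨he.1, hq.2⟩).differentiableWithinAt

/-- composition with a holomorphic change of parameter -/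
theorem HolV.comp {Q : Type*} [NormedAddCommGroup Q] [NormedSpace ℂ Q] (h : HolV (n := n) H V)
    {g : Q → P} {W : Set Q} (hW : IsOpen W) (hg : DifferentiableOn ℂ g W) (hm : MapsTo g W V) :
    HolV (n := n) (fun q => H (g q)) W := by
  refine ⟨hW, h.cont.comp hg.continuousOn hm, fun q hq e he => ?_⟩
  exact DifferentiableAt.comp (g := fun p => e (H p)) q (h.diff _ (hm hq) e he)
    (hg.differentiableAt (hW.mem_nhds hq))

lemma tj_eq_jmat {F : ℂ → Cm n → X} {z : ℂ} {ζ : Cm n}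
    (hd : DifferentiableAt ℂ (fun ζ' => e (F z ζ')) ζ) :
    HY.tj F e z ζ = jmat (fun ζ' => e (F z ζ')) ζ := by
  ext i j
  rw [jmat_apply hd]
  rfl

variable [IsManifold 𝓘(ℂ, Cm n) ω X]

lemma tj_change {F : ℂ → Cm n → X} {z : ℂ} {ζ : Cm n} (hc : ContinuousAt (F z) ζ)
    (hd : DifferentiableAt ℂ (fun ζ' => e (F z ζ')) ζ) (he : At e (F z ζ))
    (he' : At e' (F z ζ)) :
    HY.tj F e' z ζ = jacM e e' (F z ζ) * HY.tj F e z ζ := by
  have hτ : DifferentiableAt ℂ (fun w => e' (e.symm w)) (e (F z ζ)) :=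
    transition_differentiableAt he he'
  have h1 : (fun ζ' => e' (F z ζ')) =ᶠ[𝓝 ζ] fun ζ' => (fun w => e' (e.symm w)) (e (F z ζ')) := by
    filter_upwards [hc.eventually (e.open_source.mem_nhds he.2)] with ζ' hζ'
    simp only [e.left_inv hζ']
  have h2 : DifferentiableAt ℂ (fun ζ' => (fun w => e' (e.symm w)) (e (F z ζ'))) ζ :=
    DifferentiableAt.comp (g := fun w => e' (e.symm w)) ζ hτ hd
  have h3 : DifferentiableAt ℂ (fun ζ' => e' (F z ζ')) ζ := h2.congr_of_eventuallyEq h1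
  have h4 := jmat_comp (τ := fun ζ' => e (F z ζ')) (σ := fun w => e' (e.symm w)) (z := ζ) hτ hd
  rw [tj_eq_jmat h3, tj_eq_jmat hd, jmat_congr h1, jacM_eq]
  exact h4

lemma tj_det_ne_zero_iff {F : ℂ → Cm n → X} {z : ℂ} {ζ : Cm n} (hc : ContinuousAt (F z) ζ)
    (hd : DifferentiableAt ℂ (fun ζ' => e (F z ζ')) ζ) (he : At e (F z ζ))
    (he' : At e' (F z ζ)) (h0 : (HY.tj F e z ζ).det ≠ 0) : (HY.tj F e' z ζ).det ≠ 0 := by
  rw [tj_change hc hd he he', Matrix.det_mul]
  exact mul_ne_zero (jacM_det_ne_zero he he') h0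

lemma jmat_eq_zero_iff_det {τ : Cm n → Cm n} {z : Cm n} (h : DifferentiableAt ℂ τ z)
    (h0 : (jmat τ z).det ≠ 0) {v : Cm n} (hv : fderiv ℂ τ z v = 0) : v = 0 := by
  have h1 : (jmat τ z).mulVec v = 0 := by
    funext p
    have h2 := jmat_mulVec h v p
    rw [hv] at h2
    exact h2.symm
  exact Matrix.eq_zero_of_mulVec_eq_zero h0 h1

end Vale.Agent.P272.FAM
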