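import Vale.Agent.P272.FAM.Hol
import Mathlib.Analysis.Calculus.InverseFunctionTheorem.ContDiff

/-!
# P272 / FAM: a holomorphic tube gives a centred holomorphic family of discs (F1a = GL1)
-/

open scoped Manifold ContDiff ComplexOrder Topology ENNReal NNReal
open MeasureTheory Metric Set Filter

noncomputable section

namespace Vale.Agent.P272.FAM

open Vale.Agent.P272.K

variable {n : ℕ} {X : Type*} [TopologicalSpace X] [ChartedSpace (Cm n) X]

lemma HolTube.holV {f : ℂ → X} {δ : ℝ} {T : ℂ → Cm n → X} (hT : HY.HolTube f δ T) :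
    HolV (n := n) (fun p : ℂ × Cm n => T p.1 p.2) (ball 0 1 ×ˢ ball 0 δ) := by
  refine ⟨isOpen_ball.prod isOpen_ball, hT.cont.mono ?_, ?_⟩
  · exact prod_mono ball_subset_closedBall subset_rfl
  · rintro ⟨z, ζ⟩ ⟨hz, hζ⟩ e he
    exact hT.holo z hz ζ hζ e he

/-- the partial Jacobian matrix is continuous -/
lemma tj_eq_of_holV {T : ℂ → Cm n → X} {V : Set (ℂ × Cm n)}
    (h : HolV (n := n) (fun p : ℂ × Cm n => T p.1 p.2) V) {z : ℂ} {ζ : Cm n} (hp : (z, ζ) ∈ V)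
    {e : Chart n X} (he : At e (T z ζ)) :
    HY.tj T e z ζ = Matrix.of fun i j =>
      fderiv ℂ (fun p : ℂ × Cm n => e (T p.1 p.2)) (z, ζ) (0, Pi.single j 1) i := by
  have h1 : HasFDerivAt (fun p : ℂ × Cm n => e (T p.1 p.2))
      (fderiv ℂ (fun p : ℂ × Cm n => e (T p.1 p.2)) (z, ζ)) (z, ζ) :=
    (h.diff (z, ζ) hp e he).hasFDerivAt
  have h2 := HasFDerivAt.comp (g := fun p : ℂ × Cm n => e (T p.1 p.2)) ζ h1
    (hasFDerivAt_prodMk_right z ζ)
  ext i j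
  show fderiv ℂ (fun ζ' => e (T z ζ')) ζ (Pi.single j 1) i = _
  have h3 : fderiv ℂ (fun ζ' => e (T z ζ')) ζ = _ := h2.fderiv
  rw [h3]
  rfl

variable [IsManifold 𝓘(ℂ, Cm n) ω X]

/-- the invertibility of the partial Jacobian matrix is an open condition -/
lemma eventually_tj_det {T : ℂ → Cm n → X} {V : Set (ℂ × Cm n)}
    (h : HolV (n := n) (fun p : ℂ × Cm n => T p.1 p.2) V) {z : ℂ} {ζ : Cm n} (hp : (z, ζ) ∈ V)
    (h0 : ∀ e : Chart n X, At e (T z ζ) → (HY.tj T e z ζ).det ≠ 0) :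
    ∀ᶠ p in 𝓝 (z, ζ), ∀ e : Chart n X, At e (T p.1 p.2) → (HY.tj T e p.1 p.2).det ≠ 0 := by
  set e0 : Chart n X := chartAt (Cm n) (T z ζ) with he0d
  have he0 : At e0 (T z ζ) := BR.at_chartAt _
  have han := h.analyticAt hp he0
  have hcf : ContinuousAt (fderiv ℂ (fun p : ℂ × Cm n => e0 (T p.1 p.2))) (z, ζ) :=
    han.fderiv.continuousAt
  have hcm : ContinuousAt (fun q : ℂ × Cm n => (Matrix.of fun i j =>
      fderiv ℂ (fun p : ℂ × Cm n => e0 (T p.1 p.2)) q (0, Pi.single j 1) i :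
        Matrix (Fin n) (Fin n) ℂ)) (z, ζ) := by
    refine continuousAt_pi.2 fun i => continuousAt_pi.2 fun j => ?_
    exact (continuous_apply i).continuousAt.comp
      (hcf.clm_apply (continuousAt_const (y := ((0 : ℂ), (Pi.single j 1 : Cm n)))))
  have hcd : ContinuousAt (fun q : ℂ × Cm n => (Matrix.of fun i j =>
      fderiv ℂ (fun p : ℂ × Cm n => e0 (T p.1 p.2)) q (0, Pi.single j 1) i :
        Matrix (Fin n) (Fin n) ℂ).det) (z, ζ) :=
    (Continuous.matrix_det continuous_id).continuousAt.comp hcm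
  have hne : (Matrix.of fun i j =>
      fderiv ℂ (fun p : ℂ × Cm n => e0 (T p.1 p.2)) (z, ζ) (0, Pi.single j 1) i :
        Matrix (Fin n) (Fin n) ℂ).det ≠ 0 := by
    rw [← tj_eq_of_holV h hp he0]
    exact h0 e0 he0
  filter_upwards [h.eventually_at hp he0, hcd.eventually_ne hne] with q hq hq' e he
  have hq1 : (q.1, q.2) ∈ V := hq.1
  have hc : ContinuousAt (fun p : ℂ × Cm n => T p.1 p.2) (q.1, q.2) :=
    h.cont.continuousAt (h.isOpen.mem_nhds hq1)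
  have hd := h.diff q hq.1 e0 hq.2
  have hq2 : ContinuousAt (T q.1) q.2 :=
    ContinuousAt.comp (g := fun p : ℂ × Cm n => T p.1 p.2) (f := fun ζ' => (q.1, ζ')) hc
      (Continuous.prodMk_right q.1).continuousAt
  have hd2 : DifferentiableAt ℂ (fun ζ' => e0 (T q.1 ζ')) q.2 :=
    DifferentiableAt.comp (g := fun p : ℂ × Cm n => e0 (T p.1 p.2)) (f := fun ζ' => (q.1, ζ')) q.2
      hd (hasFDerivAt_prodMk_right q.1 q.2).differentiableAt
  refine tj_det_ne_zero_iff hq2 hd2 hq.2 he ?_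
  rw [tj_eq_of_holV h hq1 hq.2]
  exact hq'

/-- uniform invertibility over compact parts of the disc -/
lemma exists_uniform_det {f : ℂ → X} {δ : ℝ} {T : ℂ → Cm n → X} (hT : HY.HolTube f δ T) {s : ℝ}
    (hs : s < 1) : ∃ δ' : ℝ, 0 < δ' ∧ δ' ≤ δ ∧ ∀ z ∈ closedBall (0 : ℂ) s,
      ∀ ζ ∈ ball (0 : Cm n) δ', ∀ e : Chart n X, At e (T z ζ) → (HY.tj T e z ζ).det ≠ 0 := by
  have hV := HolTube.holV hT
  have h1 : ∀ z ∈ closedBall (0 : ℂ) s, ∀ᶠ p : ℂ × Cm n in 𝓝 (z, 0), ∀ e : Chart n X,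
      At e (T p.1 p.2) → (HY.tj T e p.1 p.2).det ≠ 0 := by
    intro z hz
    have hz1 : z ∈ ball (0 : ℂ) 1 := closedBall_subset_ball hs hz
    refine eventually_tj_det hV ⟨hz1, mem_ball_self hT.pos⟩ fun e he => ?_
    rw [hT.zero z (ball_subset_closedBall hz1)] at he
    exact hT.inv z (ball_subset_closedBall hz1) e he
  have h2 := (isCompact_closedBall (0 : ℂ) s).eventually_forall_of_forall_eventually
    (x₀ := (0 : Cm n)) (P := fun (ζ : Cm n) (z : ℂ) => ∀ e : Chart n X, At e (T z ζ) →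
      (HY.tj T e z ζ).det ≠ 0) (fun z hz => by
        have hs : Tendsto (fun q : Cm n × ℂ => (q.2, q.1)) (𝓝 ((0 : Cm n), z))
          (𝓝 (z, (0 : Cm n))) := continuous_swap.tendsto' _ _ rfl
        exact hs.eventually (h1 z hz))
  obtain ⟨δ', hδ', h3⟩ := Metric.eventually_nhds_iff_ball.1 h2
  refine ⟨min δ' δ, lt_min hδ' hT.pos, min_le_right _ _, fun z hz ζ hζ => ?_⟩
  exact h3 ζ (ball_subset_ball (min_le_left _ _) hζ) z hz

/-- the local inverse of the centre map `ζ ↦ e (T 0 ζ)` -/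
lemma exists_centre_inverse {f : ℂ → X} {δ : ℝ} {T : ℂ → Cm n → X} (hT : HY.HolTube f δ T)
    {e : Chart n X} (he : At e (f 0)) {δ' : ℝ} (hδ' : 0 < δ') :
    ∃ (d : ℝ) (ψ : Cm n → Cm n), 0 < d ∧ ψ (e (f 0)) = 0 ∧ DifferentiableOn ℂ ψ (ball (e (f 0)) d) ∧
      ball (e (f 0)) d ⊆ e.target ∧ ∀ y ∈ ball (e (f 0)) d, ψ y ∈ ball (0 : Cm n) δ' ∧
        ψ y ∈ ball (0 : Cm n) δ ∧ T 0 (ψ y) = e.symm y ∧ (jmat ψ y).det ≠ 0 := by
  have hV := HolTube.holV hT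
  have h00 : (0 : ℂ) ∈ closedBall (0 : ℂ) 1 := mem_closedBall_self zero_le_one
  have hT0 : T 0 0 = f 0 := hT.zero 0 h00
  have hV0 : HolV (n := n) (fun ζ : Cm n => T 0 ζ) (ball 0 δ) :=
    hV.comp (g := fun ζ : Cm n => ((0 : ℂ), ζ)) isOpen_ball (by fun_prop)
      fun ζ hζ => ⟨mem_ball_self one_pos, hζ⟩
  have he0 : At e (T 0 0) := by rw [hT0]; exact he
  have han : AnalyticAt ℂ (fun ζ : Cm n => e (T 0 ζ)) 0 := hV0.analyticAt (mem_ball_self hT.pos) he0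
  set φ : Cm n → Cm n := fun ζ => e (T 0 ζ) with hφ
  have hφ0 : φ 0 = e (f 0) := by rw [hφ]; simp only [hT0]
  have hcd : ContDiffAt ℂ 1 φ 0 := han.contDiffAt
  have hd : DifferentiableAt ℂ φ 0 := han.differentiableAt
  have hdet : (jmat φ 0).det ≠ 0 := by
    have := hT.inv 0 h00 e he
    rwa [tj_eq_jmat hd] at this
  have hinj : Function.Injective (fderiv ℂ φ 0 : Cm n →ₗ[ℂ] Cm n) := by
    rw [← LinearMap.ker_eq_bot, LinearMap.ker_eq_bot']
    intro v hv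
    exact jmat_eq_zero_iff_det hd hdet hv
  let L : Cm n ≃L[ℂ] Cm n := (LinearEquiv.ofInjectiveEndo _ hinj).toContinuousLinearEquiv
  have hL : (L : Cm n →L[ℂ] Cm n) = fderiv ℂ φ 0 := by
    ext v
    rfl
  have hfd : HasFDerivAt φ (L : Cm n →L[ℂ] Cm n) 0 := by rw [hL]; exact hd.hasFDerivAt
  let Φ := hcd.toOpenPartialHomeomorph φ hfd one_ne_zero
  let ψ : Cm n → Cm n := hcd.localInverse hfd one_ne_zero
  have hψΦ : ψ = Φ.symm := rfl
  have hψ0 : ψ (e (f 0)) = 0 := by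
    rw [← hφ0]; exact hcd.localInverse_apply_image hfd one_ne_zero
  have hψc : ContDiffAt ℂ 1 ψ (e (f 0)) := by
    rw [← hφ0]; exact hcd.to_localInverse hfd one_ne_zero
  have hmem : e (f 0) ∈ Φ.target := by
    rw [← hφ0]; exact hcd.image_mem_toOpenPartialHomeomorph_target hfd one_ne_zero
  have hψca : ContinuousAt ψ (e (f 0)) := hψc.continuousAt
  have hball : ∀ ε : ℝ, 0 < ε → ∀ᶠ y in 𝓝 (e (f 0)), ψ y ∈ ball (0 : Cm n) ε := by
    intro ε hε
    have : ball (0 : Cm n) ε ∈ 𝓝 (ψ (e (f 0))) := by rw [hψ0]; exact ball_mem_nhds _ hε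
    exact hψca.eventually this
  have hdiff : ∀ᶠ y in 𝓝 (e (f 0)), DifferentiableAt ℂ ψ y :=
    (hψc.eventually (by simp)).mono fun y hy => hy.differentiableAt one_ne_zero
  have hinv : ∀ᶠ y in 𝓝 (e (f 0)), φ (ψ y) = y := by
    filter_upwards [Φ.open_target.mem_nhds hmem] with y hy
    exact Φ.right_inv hy
  have hsrc : ∀ᶠ y in 𝓝 (e (f 0)), T 0 (ψ y) ∈ e.source := by
    have h1 : ContinuousAt (fun ζ : Cm n => T 0 ζ) (ψ (e (f 0))) := by
      rw [hψ0]; exact hV0.cont.continuousAt (isOpen_ball.mem_nhds (mem_ball_self hT.pos))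
    refine (ContinuousAt.comp (f := ψ) (g := fun ζ : Cm n => T 0 ζ) h1 hψca).eventually
      (e.open_source.mem_nhds ?_)
    show T 0 (ψ (e (f 0))) ∈ e.source
    rw [hψ0]; exact he0.2
  have htar : ∀ᶠ y in 𝓝 (e (f 0)), y ∈ e.target := he.nhds_target
  obtain ⟨d, hd0, hall⟩ := Metric.eventually_nhds_iff_ball.1
    ((hball δ' hδ').and ((hball δ hT.pos).and (hdiff.and (hinv.and (hsrc.and htar)))))
  refine ⟨d, ψ, hd0, hψ0, fun y hy => (hall y hy).2.2.1.differentiableWithinAt,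
    fun y hy => (hall y hy).2.2.2.2.2, fun y hy => ?_⟩
  obtain ⟨h1, h2, h3, h4, h5, h6⟩ := hall y hy
  refine ⟨h1, h2, ?_, ?_⟩
  · rw [← e.left_inv h5]
    congr 1
  · intro h0
    have hdφ : DifferentiableAt ℂ φ (ψ y) := hV0.diff (ψ y) h2 e ⟨he.1, h5⟩
    have h7 := jmat_comp (τ := ψ) (σ := φ) (z := y) hdφ h3
    have h8 : (fun y => φ (ψ y)) =ᶠ[𝓝 y] fun y => y := by
      filter_upwards [isOpen_ball.mem_nhds hy] with y' hy'
      exact (hall y' hy').2.2.2.1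
    rw [jmat_congr h8, jmat_id] at h7
    have h9 := congrArg Matrix.det h7
    rw [Matrix.det_mul, h0, mul_zero, Matrix.det_one] at h9
    exact one_ne_zero h9

/-- **F1a** = **GL1**: a tube gives a centred family -/
theorem cfam_of_tube {f : ℂ → X} {δ : ℝ} {T : ℂ → Cm n → X} (hT : HY.HolTube f δ T) {ρ R : ℝ}
    (hρ : 0 < ρ) (hR : 1 < R) (hρR : ρ * R < 1) {e : Chart n X} (he : At e (f 0)) :
    ∃ (d : ℝ) (G : Cm n → ℂ → X), CFam e (e (f 0)) d R G ∧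
      ∀ z ∈ ball (0 : ℂ) R, G (e (f 0)) z = f (ρ * z) := by
  have hV := HolTube.holV hT
  obtain ⟨δ', hδ', hle, hdet⟩ := exists_uniform_det hT hρR
  obtain ⟨d, ψ, hd, hψ0, hψd, htar, hψ⟩ := exists_centre_inverse hT he hδ'
  have hmz : ∀ z ∈ ball (0 : ℂ) R, (ρ : ℂ) * z ∈ ball (0 : ℂ) (ρ * R) := by
    intro z hz
    rw [mem_ball_zero_iff] at hz ⊢
    rw [norm_mul, Complex.norm_real, Real.norm_of_nonneg hρ.le]
    exact mul_lt_mul_of_pos_left hz hρ
  have hm1 : ∀ z ∈ ball (0 : ℂ) R, (ρ : ℂ) * z ∈ ball (0 : ℂ) 1 := fun z hz =>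
    ball_subset_ball hρR.le (hmz z hz)
  have hG : HolV (n := n) (fun p : Cm n × ℂ => T (ρ * p.2) (ψ p.1)) (ball (e (f 0)) d ×ˢ ball 0 R) := by
    refine hV.comp (g := fun p : Cm n × ℂ => ((ρ : ℂ) * p.2, ψ p.1)) (isOpen_ball.prod isOpen_ball)
      ?_ ?_
    · refine DifferentiableOn.prodMk (by fun_prop) ?_
      exact hψd.comp differentiableOn_fst fun p hp => hp.1
    · rintro ⟨y, z⟩ ⟨hy, hz⟩
      exact ⟨hm1 z hz, (hψ y hy).2.1⟩
  refine ⟨d, fun y z => T (ρ * z) (ψ y), ⟨hd, hR, he.1, htar, ?_, ?_, ?_, ?_⟩, ?_⟩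
  · intro y hy
    show T (ρ * 0) (ψ y) = _
    rw [mul_zero]
    exact (hψ y hy).2.2.1
  · intro y hy z hz
    exact hG.cont.continuousAt (hG.isOpen.mem_nhds ⟨hy, hz⟩)
  · intro y hy z hz e' he'
    exact hG.diff (y, z) ⟨hy, hz⟩ e' he'
  · intro y hy z hz e' he'
    have h1 : DifferentiableAt ℂ (fun ζ => e' (T (ρ * z) ζ)) (ψ y) := by
      have h2 := hV.diff ((ρ : ℂ) * z, ψ y) ⟨hm1 z hz, (hψ y hy).2.1⟩ e' he'
      exact DifferentiableAt.comp (g := fun p : ℂ × Cm n => e' (T p.1 p.2))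
        (f := fun ζ' => ((ρ : ℂ) * z, ζ')) (ψ y) h2 (hasFDerivAt_prodMk_right _ _).differentiableAt
    have h3 : DifferentiableAt ℂ ψ y := hψd.differentiableAt (isOpen_ball.mem_nhds hy)
    have h4 := jmat_comp (τ := ψ) (σ := fun ζ => e' (T (ρ * z) ζ)) (z := y) h1 h3
    have h5 : DifferentiableAt ℂ (fun y' => e' (T (ρ * z) (ψ y'))) y :=
      DifferentiableAt.comp (g := fun ζ => e' (T (ρ * z) ζ)) y h1 h3
    have h6 : HY.tj (fun z y => T (ρ * z) (ψ y)) e' z y = jmat (fun y' => e' (T (ρ * z) (ψ y'))) y :=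
      tj_eq_jmat (F := fun z y => T (ρ * z) (ψ y)) h5
    rw [h6, h4, Matrix.det_mul]
    refine mul_ne_zero ?_ (hψ y hy).2.2.2
    have h7 := hdet ((ρ : ℂ) * z) (ball_subset_closedBall (hmz z hz)) (ψ y) (hψ y hy).1 e' he'
    rwa [tj_eq_jmat h1] at h7
  · intro z hz
    show T (ρ * z) (ψ (e (f 0))) = _
    rw [hψ0]
    exact hT.zero _ (ball_subset_closedBall (hm1 z hz))

end Vale.Agent.P272.FAM
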