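import Vale.Agent.P272.FAM.Hol
import Vale.Agent.P272.BR.Spd

/-!
# P272 / FAM: joint continuity of the speed of a holomorphic family of discs
-/

open scoped Manifold ContDiff ComplexOrder Topology ENNReal NNReal
open MeasureTheory Metric Set Filter

noncomputable section

namespace Vale.Agent.P272.FAM

open Vale.Agent.P272.K

variable {n : ℕ} {X : Type*} [TopologicalSpace X] [ChartedSpace (Cm n) X]
  {P : Type*} [NormedAddCommGroup P] [NormedSpace ℂ P] {F : P → ℂ → X} {V : Set (P × ℂ)}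
  {p : P × ℂ} {e : Chart n X}

lemma HolV.vel_eq (h : HolV (n := n) (fun p : P × ℂ => F p.1 p.2) V) (hp : p ∈ V)
    (he : At e (F p.1 p.2)) :
    vel (F p.1) e p.2 = fderiv ℂ (fun q : P × ℂ => e (F q.1 q.2)) p ((0 : P), (1 : ℂ)) := by
  have h1 : HasFDerivAt (fun q : P × ℂ => e (F q.1 q.2))
      (fderiv ℂ (fun q : P × ℂ => e (F q.1 q.2)) p) (p.1, p.2) := (h.diff p hp e he).hasFDerivAt
  have h2 := HasFDerivAt.comp (g := fun q : P × ℂ => e (F q.1 q.2)) p.2 h1
    (hasFDerivAt_prodMk_right p.1 p.2)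
  have h3 := h2.hasDerivAt
  show deriv (fun ζ => e (F p.1 ζ)) p.2 = _
  rw [show (fun ζ => e (F p.1 ζ)) = (fun q : P × ℂ => e (F q.1 q.2)) ∘ (fun ζ => (p.1, ζ)) from rfl,
    h3.deriv]
  simp

variable [IsManifold 𝓘(ℂ, Cm n) ω X]

lemma HolV.holAt (h : HolV (n := n) (fun p : P × ℂ => F p.1 p.2) V) (hp : p ∈ V) :
    BR.HolAt n (F p.1) p.2 := by
  have hc : ContinuousAt (fun q : P × ℂ => F q.1 q.2) (p.1, p.2) :=
    h.cont.continuousAt (h.isOpen.mem_nhds hp)
  refine ⟨ContinuousAt.comp (g := fun q : P × ℂ => F q.1 q.2) (f := fun ζ => (p.1, ζ)) hc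
    (Continuous.prodMk_right p.1).continuousAt, fun e he => ?_⟩
  have h1 : DifferentiableAt ℂ (fun q : P × ℂ => e (F q.1 q.2)) (p.1, p.2) := h.diff p hp e he
  exact DifferentiableAt.comp (g := fun q : P × ℂ => e (F q.1 q.2)) (f := fun ζ => (p.1, ζ)) p.2 h1
    (hasFDerivAt_prodMk_right p.1 p.2).differentiableAt

variable [FiniteDimensional ℂ P] {a : Chart n X → Cm n → Matrix (Fin n) (Fin n) ℂ}

/-- the velocity in a chart is jointly continuous -/
lemma HolV.continuousAt_vel (h : HolV (n := n) (fun p : P × ℂ => F p.1 p.2) V) (hp : p ∈ V)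
    (he : At e (F p.1 p.2)) : ContinuousAt (fun q : P × ℂ => vel (F q.1) e q.2) p := by
  have han := h.analyticAt hp he
  have h1 : ContinuousAt (fun q => fderiv ℂ (fun q : P × ℂ => e (F q.1 q.2)) q
      ((0 : P), (1 : ℂ))) p := han.fderiv.continuousAt.clm_apply continuousAt_const
  refine h1.congr ?_
  filter_upwards [h.eventually_at hp he] with q hq
  exact (h.vel_eq hq.1 hq.2).symm

/-- the squared speed is jointly continuous -/
theorem HolV.continuousOn_spd (h : HolV (n := n) (fun p : P × ℂ => F p.1 p.2) V)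
    (ha : IsHermitian a) : ContinuousOn (fun p : P × ℂ => BR.spd a (F p.1) p.2) V := by
  intro p hp
  refine ContinuousAt.continuousWithinAt ?_
  have he : At (chartAt (Cm n) (F p.1 p.2)) (F p.1 p.2) := BR.at_chartAt _
  set e : Chart n X := chartAt (Cm n) (F p.1 p.2) with hedef
  have h2 : ContinuousAt (fun q : P × ℂ => e (F q.1 q.2)) p := (h.diff p hp e he).continuousAt
  have h1 : ContinuousAt (fun q : P × ℂ => (quad (a e (e (F q.1 q.2))) (vel (F q.1) e q.2)).re) p :=
    BR.tendsto_quad ha he h2 (h.continuousAt_vel hp he)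
  refine h1.congr ?_
  filter_upwards [h.eventually_at hp he] with q hq
  exact (BR.spd_eq ha (h.holAt hq.1) hq.2).symm

end Vale.Agent.P272.FAM
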